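import Vale.Agent.P354CP.Tr
import Vale.Agent.P354EF.Main

/-!
The lens, the first slabs, the estimate in unit time.
-/

open scoped ContDiff ENNReal
open Set MeasureTheory Filter

noncomputable section

namespace Vale.Agent.P354CP

open Vale.Agent.P354XG Vale.Agent.P354XD Vale.Agent.P354XI Vale.Agent.P354Z Vale.Agent.P354CV
open Vale.Agent.P354EF Vale.Agent.P354SI Vale.Agent.P354CO
open Vale.Agent.P354BF (De rp)
open Vale.Agent.P354XT (up dn up_nonneg up_le up_sm)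
open Vale.Agent.P354PH (up_der up_der_out)
open Vale.Agent.P354XR (eta_nn eta_mono r1_pos)
open Vale.Agent.P354YH (wt sm wt_pos wt_mono)

theorem ini_le : ∃ V, 0 ≤ V ∧ ∀ (c : Cs) (E : Est) (n : ℕ) (f : E6 → ℝ) (Z : Set E6) (ρ a b : ℝ),
    c.Ok → E.Is c → n ≤ c.K + 2 → (∀ x, f x ≤ E.eta n x) → 0 ≤ ρ → 0 ≤ b → b ≤ c.t1 + c.B + 10 →
    Yz E f (Z ∩ Bx ρ a b) ≤ ENNReal.ofReal (V * ((b + c.B) * ρ * E.e0 ^ 2)) := by
  obtain ⟨V, V0, h⟩ := vol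
  exact ⟨V, V0, fun c E n f Z ρ a b ok is hn hf hρ h0 hb => h c E f Z ρ a b _ is.shape
    (r1_pos ok).2.le (sq_nonneg _) hρ (by linarith [ok.B]) fun x hx an k => (hf x).trans
      ((eta_mono _ hn x).trans (is.near.ini x hx an (k.trans hb)))⟩

theorem Rs_big {c : Cs} (ok : c.Ok) : 10 ≤ c.R2 ∧ c.R2 + 10 ≤ c.Rs := by
  have := (r1_pos ok).1
  constructor <;> linarith [ok.R1, ok.R2, ok.Rs]

theorem ord2 : Ord fun _ L _ c => 4 ≤ c.N0 ∧ 2 * c.L0 + 12 ≤ L ∧ L + 8 ≤ c.K := fun _ _ =>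
  ⟨0, fun _ _ => ⟨4, fun b hb => ⟨2 * b.L0 + 12, fun L hL => ⟨0, fun _ _ =>
    ⟨L + 8, 0, fun _ hK _ _ _ _ _ => ⟨hb, hL, hK⟩⟩⟩⟩⟩⟩

theorem cap : CAP := by
  obtain ⟨V, V0, hV⟩ := ini_le
  refine ord2.mono fun _ L _ c ok ⟨hN, hL, hK⟩ => ?_
  obtain ⟨m0, r0⟩ := r1_pos ok
  obtain ⟨cm, -, -, -, h⟩ := ex_cx efin m0 r0 one_pos
  obtain ⟨κ, C, k0, C0, h⟩ := h (c.Rs - 2) (L + 8) (by omega)
  obtain ⟨δ, d0, h⟩ := h c ok rfl rfl 1 one_pos
  obtain ⟨A, A0, hA⟩ := rowG κ c.B k0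
  have rs : 0 ≤ c.Rs - 1 := by linarith [Rs_big ok]
  have tb : 0 ≤ c.t1 + c.B := by linarith [ok.t1, ok.B]
  have v0 : 0 ≤ V * ((c.t1 + c.B + c.B) * (c.Rs - 1)) :=
    mul_nonneg V0 (mul_nonneg (by linarith [ok.B]) rs)
  have a0 := mul_nonneg A0 C0
  refine ⟨δ, d0, A * C + V * ((c.t1 + c.B + c.B) * (c.Rs - 1)), add_nonneg a0 v0,
    fun E ε s T b he _ top s1 s2 D h1 h2 D0 hD => ?_⟩
  rcases le_total T c.t1 with q | q
  · refine (Yz_mono E _ (Z' := univ ∩ Bx (c.Rs - 1) (T + 1) (c.t1 + c.B)) fun x _ _ k =>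
      ⟨trivial, k.2.2.1, k.2.2.2.1, by linarith [k.2.2.2.2]⟩).trans ((hV c E (L + 8) _ _ _ _ _ ok
      b.is (by omega) (fun _ => le_rfl) rs tb (by linarith)).trans (le_trans ?_
        (mul_le_mul_right le_add_self _)))
    rw [← ENNReal.ofReal_mul (add_nonneg a0 v0), ← mul_assoc]
    exact ENNReal.ofReal_le_ofReal (mul_le_mul (by linarith) (hD q) (sq_nonneg _) (by linarith))
  have cx := (h E L ε b he (by omega) hN (by linarith)).1
  have k := hA cx isOpen_Iio (isLowerSet_Iio s2) T (fun _ => 1) (by linarith) wg_one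
    fun x hx hl ht _ => (top.lens x hx (lt_trans hl h2) ht).1
  simp only [one_mul] at k
  refine (Yz_mono E _ fun x _ _ k => ?_).trans (k.trans (mul_le_mul
    (ENNReal.ofReal_le_ofReal (by linarith)) (le_trans ((Yz_le E (eta_mono E (by omega)) _).trans
      (Yz_mono E _ fun x hx _ k => ?_)) le_self_add) zero_le zero_le))
  · exact ⟨k.2.1.trans_lt h1, by linarith [k.2.2.2.1], k.2.2.2.2⟩
  · exact ⟨cx.ab x hx (by linarith [k.2.1]), le_of_lt k.1, by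
      linarith [(top.lens x hx (lt_trans k.1 h2) k.2.1).1], k.2.1, by linarith [k.2.2]⟩

theorem sl_of {c : Cs} {Q T D : ℝ} {Y : ℝ → ℝ → ℝ≥0∞} (N : ℕ) (b : ℕ → ℝ) (b0 : ∀ j, 0 ≤ b j)
    (h : ∀ j < N, Y (lo c j) (min (c.t1 + j + 1) T) ≤ ENNReal.ofReal (b j))
    (h0 : ∀ j, N ≤ j → Y (lo c j) (min (c.t1 + j + 1) T) = 0)
    (hs : ∑ j ∈ Finset.range N, wt Q j * b j ≤ D) : Sl c Q Y T D := fun k => by
  refine (Finset.sum_le_sum_of_ne_zero (t := Finset.range N) fun j _ e => Finset.mem_range.2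
    (not_le.1 fun q => e (by rw [h0 j q, mul_zero]))).trans
    (le_trans ?_ (ENNReal.ofReal_le_ofReal hs))
  rw [ENNReal.ofReal_sum_of_nonneg fun j _ => mul_nonneg (wt_pos Q j).le (b0 j)]
  refine Finset.sum_le_sum fun j hj => ?_
  rw [ENNReal.ofReal_mul (wt_pos Q j).le]
  exact mul_le_mul_right (h j (Finset.mem_range.1 hj)) _

theorem Yz_zero (E : Est) (f : E6 → ℝ) {Z : Set E6} (h : ∀ x ∈ E.O1, x ∉ Z) : Yz E f Z = 0 :=
  le_antisymm ((Yz_mono E f (Z' := ∅) fun x hx _ k => h x hx k).trans (by simp [Yz])) zero_le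

theorem Yl_zero (c : Cs) (E : Est) (n : ℕ) (R : ℝ) {T : ℝ} {N j : ℕ} (h : T ≤ c.t1 + N)
    (hj : N + 1 ≤ j) : Yl c E n R (lo c j) (min (c.t1 + j + 1) T) = 0 :=
  Yz_zero E _ fun x _ k => by
    have a1 := k.2.2.1
    have : ((N + 1 : ℕ) : ℝ) ≤ j := Nat.cast_le.2 hj
    rw [lo, if_neg (by omega)] at a1
    push_cast at this
    linarith [k.2.2.2.trans (min_le_right _ _)]

theorem loc0 : LOC0 := fun c n w Q R ok hn hK hN hQ hR => by
  obtain ⟨m0, r0⟩ := r1_pos ok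
  rcases le_total R 0 with R0 | R0
  · exact ⟨1, one_pos, 0, le_rfl, fun E L ε b _ _ => sl_of 0 (fun _ => 0) (fun _ => le_rfl)
      (fun _ h => absurd h (Nat.not_lt_zero _)) (fun j _ => Yz_zero E _ fun x hx k => by
        linarith [k.2.1, (b.is.shape.rad1 x hx).1]) (by simp)⟩
  obtain ⟨V, V0, hV⟩ := ini_le
  obtain ⟨cm, -, -, -, h⟩ := ex_cx efin m0 r0 one_pos
  obtain ⟨κ, C, k0, C0, h⟩ := h (c.Rs - 1) n hn
  obtain ⟨δ, d0, h⟩ := h c ok rfl rfl 1 one_pos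
  obtain ⟨A, A0, hA⟩ := rowU κ w k0 w.cast_nonneg
  have t0 : 0 ≤ c.t1 + 1 / 2 := by linarith [ok.t1]
  have B0 : 0 ≤ c.B := by linarith [ok.B]
  have r2 : 0 ≤ R + 6 * c.M + w + 2 := by positivity
  have w0 := wt_pos Q w
  set U := V * ((c.t1 + 1 / 2 + c.B) * (R + 6 * c.M + w + 2)) with hU
  have U0 : 0 ≤ U := by positivity
  refine ⟨δ, d0, (w + 1) * (wt Q w * ((1 + A * C) * U)), by positivity, fun E L ε b he hL =>
    sl_of (w + 1) (fun _ => (1 + A * C) * U * E.e0 ^ 2) (fun _ => by positivity) (fun j _ => ?_)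
      (fun j hj => Yl_zero c E n R le_rfl hj) ?_⟩
  · have k := hA (h E L ε b he hL hN (by linarith)).1 isOpen_univ isLowerSet_univ c.t1
      (R + 6 * c.M) _ (by linarith) (by linarith) (by linarith) rw_one
    simp only [one_mul] at k
    have i := fun a => hV c E n _ (ZL E univ) _ a _ ok b.is (by omega) (fun _ => le_rfl) r2 t0
      (by linarith)
    refine (Yz_mono E _ (Z' := ZL E univ ∩ Bx (R + 6 * c.M + w + 2) (lo c j) (c.t1 + 1 / 2) ∪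
      ZL E univ ∩ Bx (R + 6 * c.M) (c.t1 + 1 / 2) (c.t1 + w)) fun x _ _ k => ?_).trans
      ((Yz_union _ _ _ _).trans ((add_le_add (i _) (k.trans (mul_le_mul_right (i _) _))).trans_eq ?_))
    · have := k.2.1
      exact (le_total x.1 (c.t1 + 1 / 2)).imp (fun q => ⟨trivial, by
        linarith [w.cast_nonneg (α := ℝ)], k.2.2.1, q⟩)
        fun q => ⟨trivial, by linarith, q, k.2.2.2.trans (min_le_right _ _)⟩
    · rw [← ENNReal.ofReal_mul (by positivity), ← ENNReal.ofReal_add (by positivity)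
        (by positivity), hU]
      congr 1; ring
  · refine (Finset.sum_le_card_nsmul _ _ (wt Q w * ((1 + A * C) * U * E.e0 ^ 2)) fun j hj =>
      mul_le_mul_of_nonneg_right (wt_mono hQ (Nat.lt_succ_iff.1 (Finset.mem_range.1 hj)))
        (by positivity)).trans_eq ?_
    simp only [Finset.card_range, nsmul_eq_mul]; push_cast; ring

variable {P : Pr}

theorem ch_le (P : Pr) (E : Est) (n : ℕ) (x : E6) : P.ch x.2.1 * E.eta n x ≤ E.eta n x :=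
  mul_le_of_le_one_left (eta_nn E n x) (up_le _ _ _)

/-- The data on a box of the initial part. -/
theorem st_ini (n : ℕ) : ∃ V, 0 ≤ V ∧ ∀ P : Pr, ∀ᶠ σ in F0 P n, ∀ (f : E6 → ℝ) (Z : Set E6)
    (ρ a b : ℝ), (∀ x, f x ≤ σ.E.eta n x) → 0 ≤ ρ → b ≤ P.c.t1 + 4 →
    Yz σ.E f (Z ∩ Bx ρ a b) ≤ ENNReal.ofReal (V * ((|P.c.t1| + 5) * ρ) * σ.D) := by
  obtain ⟨V, V0, hV⟩ := ini_le
  refine ⟨V, V0, fun P => (ev_LK n).mono fun σ h f Z ρ a b hf hρ hb => ?_⟩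
  have t1 : 2 ≤ P.c.t1 := σ.ok.t1
  have B1 : 1 ≤ σ.B := σ.ok.B
  refine (Yz_mono _ _ (Z' := Z ∩ Bx ρ a (P.c.t1 + 4))
    fun x _ _ k => ⟨k.1, k.2.1, k.2.2.1, k.2.2.2.trans hb⟩).trans
    ((hV σ.c σ.E n f Z ρ a (P.c.t1 + 4) σ.ok σ.is (show n ≤ σ.Kc + 2 by omega) hf hρ (by linarith)
      (show _ ≤ P.c.t1 + σ.B + 10 by linarith)).trans (ENNReal.ofReal_le_ofReal ?_))
  rw [mul_assoc V, abs_of_nonneg (by linarith)]
  refine mul_le_mul_of_nonneg_left (le_trans ?_ (mul_le_mul_of_nonneg_left σ.dB (by positivity))) V0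
  have : P.c.t1 + 4 + σ.B ≤ (P.c.t1 + 5) * σ.B ^ 2 := by
    have : σ.B ≤ σ.B ^ 2 := by nlinarith
    nlinarith [mul_le_mul_of_nonneg_left (B1.trans this) (show 0 ≤ P.c.t1 + 4 by linarith)]
  exact (mul_le_mul_of_nonneg_right (mul_le_mul_of_nonneg_right this hρ) (sq_nonneg _)).trans_eq
    (by ring)

theorem St.D0 (σ : St P) : 0 ≤ σ.D := (sq_nonneg _).trans σ.dB

variable {G : ℕ → Filter (St P)} {Γ : ℕ → ℝ → St P → ℕ → ℝ}

theorem init (hP : P.Ok) : (sys P G Γ).INIT := fun n R => by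
  obtain ⟨V, V0, hV⟩ := st_ini n
  refine ⟨V * ((|P.c.t1| + 5) * (|R| + 1)), by positivity, ev_sys ((hV P).mono
    fun σ h j hj _ => (ENNReal.ofReal_le_ofReal_iff (by have := St.D0 σ; positivity)).1
      ((fy_le hP σ n R j).trans ((Yz_mono _ _ fun x _ _ k => ?_).trans
        (h _ (ZL σ.E univ) (|R| + 1) (P.c.t1 + j) (P.c.t1 + j + 2) (ch_le P _ n) (by positivity)
          (by have : (j : ℝ) ≤ 2 := by exact_mod_cast hj
              linarith)))))⟩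
  exact ⟨k.1, by linarith [k.2.1, le_abs_self R], k.2.2⟩

/-- The context on the states. -/
theorem st_cx (hP : P.Ok) {n : ℕ} (hn : 1 ≤ n) (ρ : ℝ) : ∃ ε cm κ C, 0 < ε ∧ 0 ≤ κ ∧ 0 ≤ C ∧
    ∀ᶠ σ in F0 P n, ρ ≤ σ.R2 - 2 ∧ Cx σ.c σ.E n ρ cm κ C ∧ Rw σ.c σ.E cm P.ch ∧
      ∀ r, P.c.r1 ≤ r → r ≤ (P.rI + rp P.c.M P.c.a) / 2 →
        C2 cm σ.E.M σ.E.a r (-ε) (-1 - -ε * hs P.c.M (σ.E.M, σ.E.a, r)) := by
  rcases isEmpty_or_nonempty (St P) with e | ⟨⟨σ0⟩⟩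
  · exact ⟨1, 0, 0, 0, one_pos, le_rfl, le_rfl, .of_forall fun σ => isEmptyElim σ⟩
  obtain ⟨m0, r0⟩ : 0 < P.c.M ∧ 0 < P.c.r1 := r1_pos (c := σ0.c) σ0.ok
  have rI := hP.rI
  obtain ⟨cD, c0, δ, d0, hD⟩ := de_neg (M0 := P.c.M) (a0 := P.c.a) (r1 := P.c.r1) σ0.ok.aM σ0.ok.r1
    (rb := (P.rI + rp P.c.M P.c.a) / 2) (by linarith) (by linarith [σ0.r10, σ0.d_pos])
  obtain ⟨cm, p0, p1, p2, h⟩ := ex_cx efin m0 r0 (c1 := cD / 4) (by positivity)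
  obtain ⟨κ, C, k0, C0, h⟩ := h ρ n hn
  choose! e e0 he using fun c ok eM er => h c ok eM er δ d0
  refine ⟨min (1 / 2) (cD / (64 * P.c.M ^ 2)), cm, κ, C, by positivity, k0, C0, ?_⟩
  filter_upwards [ev_c n (e := fun c => if 0 < e c then e c else 1) fun c => by
    split_ifs with q; exacts [q, one_pos], ev_R n (ρ + 2), ev_LK n] with σ h1 h2 h3
  rw [if_pos (e0 σ.c σ.ok rfl rfl)] at h1
  obtain ⟨cx, hd⟩ := he σ.c σ.ok rfl rfl σ.E σ.L σ.eps (St.bo σ) h1.1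
    (show _ + P.c.L0 + 1 ≤ _ by omega) (show 4 ≤ P.c.N0 by have := hP.N0; omega)
    (by linarith [(Rs_big (c := σ.c) σ.ok).2, show σ.c.R2 = σ.R2 from rfl])
  have key : ∀ ε, 0 ≤ ε → ε ≤ min (1 / 2) (cD / (64 * P.c.M ^ 2)) → ∀ r, P.c.r1 ≤ r →
      r ≤ (P.rI + rp P.c.M P.c.a) / 2 →
      C2 cm σ.E.M σ.E.a r (-ε) (-1 - -ε * hs P.c.M (σ.E.M, σ.E.a, r)) := fun ε a1 a2 r b1 b2 => by
    obtain ⟨q1, q2⟩ := hD _ _ r hd b1 b2
    rw [hs_in m0 (by nlinarith [sq_nonneg σ.E.a])]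
    refine c2_in q1 p0.le p1 (by linarith) a1 (a2.trans (min_le_left _ _)) ?_
    nlinarith [(le_div_iff₀ (by positivity)).1 (a2.trans (min_le_right _ _)),
      mul_le_mul_of_nonneg_right q2 a1]
  refine ⟨by linarith, cx, ⟨up_sm _ _, up_nonneg _ _, up_der rI.1, fun r hr q => ?_⟩,
    key _ (by positivity) le_rfl⟩
  simpa using key 0 le_rfl (by positivity) r hr (by
    linarith [(by_contra fun q' => q (up_der_out rI.1 fun k => q' k.2) : r ≤ P.rI)])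

theorem unit (hP : P.Ok) : (sys P G Γ).UNIT := fun R => by
  obtain ⟨ε, cm, κ, C, -, k0, C0, h⟩ := st_cx hP (n := P.n0 - 1) (by unfold Pr.n0; omega)
    (max (R + 1) (6 * P.c.M) + 5 / 2 + 2)
  obtain ⟨A, A0, hA⟩ := rowU κ (5 / 2) k0 (by norm_num)
  obtain ⟨C1, c1, h1⟩ := le_fy (P.n0 - 1)
  refine ⟨P.n0 - 1, max (R + 1) (6 * P.c.M) + 5 / 2 + 2, 1 + A * C * C1, by positivity,
    ev_sys (h.mono fun σ ⟨hρ, cx, rw, _⟩ => ⟨?_, fun k hk => ?_⟩)⟩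
  · exact (fy_mono hP le_rfl (by linarith [le_max_left (R + 1) (6 * P.c.M)]) σ 0).trans
      (le_mul_of_one_le_left (fy_nn _ _ _ _) (le_add_of_nonneg_right (by positivity)))
  have y0 := fy_nn (P.n0 - 1) (max (R + 1) (6 * P.c.M) + 5 / 2 + 2) σ k
  refine le_trans ?_ (mul_le_mul (le_add_of_nonneg_left zero_le_one) (le_add_of_nonneg_right
    (mul_nonneg (fh_pos σ _).le (fy_nn _ _ _ _))) y0 (by positivity))
  have k1 := hA cx isOpen_univ isLowerSet_univ (P.c.t1 + k + 1 / 2) _ _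
    (show P.c.t1 - 2 ≤ _ by linarith [k.cast_nonneg (α := ℝ)]) (le_max_right (R + 1) _) le_rfl rw
  refine (ENNReal.ofReal_le_ofReal_iff (by positivity)).1 ((fy_le hP σ _ R _).trans
    ((Yz_mono _ _ fun x _ _ q => ?_).trans (k1.trans ((mul_le_mul_right ((Yz_mono _ _
      fun x _ _ q => ?_).trans (h1 hP σ _ k (ZL σ.E univ) hk.le hρ)) _).trans_eq ?_))))
  · have := q.2.2
    push_cast at this
    exact ⟨trivial, q.2.1.trans (le_max_left _ _), by linarith [this.1], by linarith [this.2]⟩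
  · exact ⟨trivial, q.2.1, q.2.2.1, by linarith [q.2.2.2]⟩
  · rw [← ENNReal.ofReal_mul (by positivity), ← mul_assoc]; rfl

end Vale.Agent.P354CP
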