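import Vale.Agent.P354CO.Defs

/-!
The local estimates up to the lid. Exact statements.
-/

open Filter

noncomputable section

namespace Vale.Agent.P354CP

open Vale.Agent.P354Z Vale.Agent.P354CV Vale.Agent.P354SI Vale.Agent.P354CO
open Vale.Agent.P354YH (sm)

/-- LOC: all slabs up to the time t1 + k + w, up to the lid and down to r1, are bounded by the
functionals on the slabs j ≤ k. -/
def LOC : Prop := ∀ P : Pr, P.Ok → ∀ (n : ℕ) (R : ℝ) (w : ℕ), 1 ≤ n → ∃ R' C, 0 ≤ C ∧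
  ∀ᶠ σ in F0 P n, ∀ k : ℕ, k ≤ σ.K → Sl σ.c P.Q (Yl σ.c σ.E n R) (P.c.t1 + k + w)
    (C * (σ.D + sm P.Q k (fy P n R' σ)))

/-- LOC0: the slabs up to the time t1 + w are bounded by the data. -/
def LOC0 : Prop := ∀ (c : Cs) (n w : ℕ) (Q R : ℝ), c.Ok → 1 ≤ n → n ≤ c.K → 4 ≤ c.N0 → 0 ≤ Q →
  R + 6 * c.M + w + 5 ≤ c.Rs → ∃ δ > 0, ∃ C ≥ 0, ∀ (E : Est) (L : ℕ) (ε : ℝ), Bo c E L ε → ε ≤ δ →
    n / 2 + c.L0 + 1 ≤ L → Sl c Q (Yl c E n R) (c.t1 + w) (C * E.e0 ^ 2)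

end Vale.Agent.P354CP
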