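import Vale.Agent.P354CP.Cap

/-!
The local estimate up to the lid.
-/

open scoped ContDiff ENNReal
open Set MeasureTheory Filter

noncomputable section

namespace Vale.Agent.P354CP

open Vale.Agent.P354XG Vale.Agent.P354XD Vale.Agent.P354XI Vale.Agent.P354Z Vale.Agent.P354CV
open Vale.Agent.P354EF Vale.Agent.P354SI Vale.Agent.P354CO
open Vale.Agent.P354BF (De rp)
open Vale.Agent.P354XR (eta_nn)
open Vale.Agent.P354YH (wt sm wt_pos wt_mono wt_succ wt_zero)

theorem Yz_sum (E : Est) (f : E6 → ℝ) (s : Finset ℕ) (T : ℕ → Set E6) :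
    Yz E f (⋃ d ∈ s, T d) ≤ ∑ d ∈ s, Yz E f (T d) := by
  induction s using Finset.induction_on with
  | empty => simp [Yz]
  | insert a s ha ih =>
    rw [Finset.set_biUnion_insert, Finset.sum_insert ha]
    exact (Yz_union _ _ _ _).trans (add_le_add_right ih _)

theorem wt_pow {Q : ℝ} (h0 : 0 ≤ Q) (h3 : Q ≤ 3) (i : ℕ) : ∀ m, wt Q (i + m) ≤ 8 ^ m * wt Q i
  | 0 => by simp
  | m + 1 => (wt_succ h0 h3 (i + m)).trans (by rw [pow_succ]; linarith [wt_pow h0 h3 i m])

theorem wsum {Q : ℝ} (h0 : 0 ≤ Q) (h3 : Q ≤ 3) (m k N : ℕ) {f : ℕ → ℝ} (hf : ∀ j, 0 ≤ f j)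
    (g : ℕ → ℕ) (hg : ∀ j < N, g j ≤ k ∧ j ≤ g j + m ∧ g j ≤ j + 1) :
    ∑ j ∈ Finset.range N, wt Q j * f (g j) ≤ (m + 2) * 8 ^ m * sm Q k f := by
  rw [← Finset.sum_fiberwise_of_maps_to (t := Finset.range (k + 1)) (g := g) fun j hj =>
    Finset.mem_range.2 (Nat.lt_succ_of_le (hg j (Finset.mem_range.1 hj)).1), sm, Finset.mul_sum]
  refine Finset.sum_le_sum fun i _ => (Finset.sum_le_card_nsmul _ _ (8 ^ m * (wt Q i * f i))
    fun j hj => ?_).trans ?_
  · obtain ⟨a, rfl⟩ := Finset.mem_filter.1 hj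
    rw [← mul_assoc]
    exact mul_le_mul_of_nonneg_right ((wt_mono h0 (hg j (Finset.mem_range.1 a)).2.1).trans
      (wt_pow h0 h3 _ m)) (hf _)
  · rw [nsmul_eq_mul, mul_assoc]
    refine mul_le_mul_of_nonneg_right ?_ (by have := wt_pos Q i; have := hf i; positivity)
    have : (Finset.filter (fun j => g j = i) (Finset.range N)).card ≤ m + 2 :=
      (Finset.card_le_card (t := Finset.Icc (i - 1) (i + m)) fun j hj => by
        obtain ⟨a, rfl⟩ := Finset.mem_filter.1 hj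
        have := hg j (Finset.mem_range.1 a)
        rw [Finset.mem_Icc]; omega).trans (by rw [Nat.card_Icc]; omega)
    exact_mod_cast this

theorem loc : LOC := fun P hP n R w hn => by
  have rI := hP.rI
  set rb := (P.rI + rp P.c.M P.c.a) / 2 with hrb
  set R1 := max (max |R| rb) (6 * P.c.M) with hR1
  have q1 : |R| ≤ R1 := (le_max_left _ _).trans (le_max_left _ _)
  have q2 : rb ≤ R1 := (le_max_right _ _).trans (le_max_left _ _)
  have q0 := (abs_nonneg R).trans q1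
  have w0 := w.cast_nonneg (α := ℝ)
  obtain ⟨ε, cm, κ, C, e0, k0, C0, h⟩ := st_cx hP hn (R1 + (w + 3) + 2)
  obtain ⟨V, V0, hV⟩ := st_ini n
  obtain ⟨C1, c1, h1⟩ := le_fy n
  obtain ⟨A, A0, hA⟩ := rowU κ (w + 3) k0 (by positivity)
  obtain ⟨W, hW⟩ := exists_nat_ge (|rb - P.c.r1| / ε + 1)
  have p0 : 0 ≤ |rb - P.c.r1| / ε := by positivity
  obtain ⟨B, B0, hB⟩ := rowI κ P.rI rb W k0 (by linarith) (by linarith)
  set U := V * ((|P.c.t1| + 5) * R1) with hU
  have U0 : 0 ≤ U := by positivity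
  set m := W + w + 2 with hm
  refine ⟨R1 + (w + 3) + 2, (1 + B * C) * ((m + 2) * 8 ^ m * (U + (W + 3) * ((1 + A * C) * C1))),
    by positivity, ((hV P).and h).mono fun σ ⟨i, hρ, cx, rw, c2⟩ k hk => ?_⟩
  set f := fy P n (R1 + (w + 3) + 2) σ with hf
  have f0 : ∀ j, 0 ≤ f j := fy_nn _ _ _
  have D0 := St.D0 σ
  set u : ℕ → ℝ := fun j => if j = 0 then σ.D else 0 with hu
  have u0 : ∀ j, 0 ≤ u j := fun j => by simp only [hu]; split_ifs; exacts [D0, le_rfl]
  have X : ∀ j ≤ k + w + 1, Yz σ.E (σ.E.eta n) (ZL σ.E univ ∩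
      (Bx R1 (P.c.t1 + j + 1 / 2) (P.c.t1 + j + 3 / 2) ∩ {x | P.rI ≤ x.2.1})) ≤
      ENNReal.ofReal ((1 + A * C) * C1 * f (min j k)) := fun j hj => by
    have a := Yz_cmp σ.E (f := σ.E.eta n) (g := fun x => P.ch x.2.1 * σ.E.eta n x) (ZL σ.E univ)
      ((bx_ms R1 (P.c.t1 + j + 1 / 2) (P.c.t1 + j + 3 / 2)).inter (isClosed_le
        (continuous_const (y := P.rI)) continuous_snd.fst).measurableSet)
      (bx_ms R1 (P.c.t1 + j + 1 / 2) (P.c.t1 + j + 3 / 2)) zero_le_one fun x hx => by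
        rw [indicator_of_mem hx.1, hP.ch_one hx.2]; simp
    rw [ENNReal.ofReal_one, one_mul] at a
    have b := h1 hP σ _ (min j k) (ZL σ.E univ) ((min_le_right _ _).trans hk) hρ
    have z := mul_nonneg c1 (f0 (min j k))
    refine a.trans ?_
    rcases le_or_gt j k with q | q
    · rw [min_eq_left q] at b z ⊢
      refine ((Yz_mono _ _ fun x _ _ q => ?_).trans b).trans (ENNReal.ofReal_le_ofReal (by
        nlinarith [mul_nonneg (mul_nonneg A0 C0) z]))
      exact ⟨trivial, by linarith [q.2.1], q.2.2⟩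
    · rw [min_eq_right q.le] at b z ⊢
      have j1 : (k : ℝ) + 1 ≤ j := by exact_mod_cast q
      have j2 : (j : ℝ) ≤ k + w + 1 := by exact_mod_cast hj
      refine (Yz_mono _ _ fun x _ _ q => ?_).trans ((hA cx isOpen_univ isLowerSet_univ
        (P.c.t1 + k + 1 / 2) R1 _ (show P.c.t1 - 2 ≤ _ by linarith [k.cast_nonneg (α := ℝ)])
        (le_max_right _ _) le_rfl rw).trans ((mul_le_mul_right ((Yz_mono _ _ fun x _ _ q =>
          ?_).trans b) _).trans ?_))
      · exact ⟨trivial, q.2.1, by linarith [q.2.2.1], by linarith [q.2.2.2]⟩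
      · exact ⟨trivial, q.2.1, q.2.2.1, by linarith [q.2.2.2]⟩
      · rw [← ENNReal.ofReal_mul (by positivity)]
        exact ENNReal.ofReal_le_ofReal (by nlinarith)
  set b : ℕ → ℝ := fun j => U * u (j - W) +
    ∑ d ∈ Finset.range (W + 3), (1 + A * C) * C1 * f (min (j + 1 - d) k) with hb
  have s0 : ∀ j, 0 ≤ ∑ d ∈ Finset.range (W + 3), (1 + A * C) * C1 * f (min (j + 1 - d) k) :=
    fun j => Finset.sum_nonneg fun d _ => by have := f0 (min (j + 1 - d) k); positivity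
  have b0 : ∀ j, 0 ≤ b j := fun j => add_nonneg (mul_nonneg U0 (u0 _)) (s0 j)
  have S : ∀ j ≤ k + w, Yz σ.E (σ.E.eta n) (ZL σ.E univ ∩ (Bx R1 (P.c.t1 + j - W) (P.c.t1 + j + 2) ∩
      ({x | P.rI ≤ x.2.1} ∪ {x | x.1 ≤ P.c.t1}))) ≤ ENNReal.ofReal (b j) := fun j hj => by
    refine (Yz_mono _ _ (Z' := ZL σ.E univ ∩ Bx R1 (P.c.t1 + j - W) (P.c.t1 + 1 / 2) ∪
      ⋃ d ∈ Finset.range (W + 3), ZL σ.E univ ∩ (Bx R1 (P.c.t1 + (j + 1 - d : ℕ) + 1 / 2)
        (P.c.t1 + (j + 1 - d : ℕ) + 3 / 2) ∩ {x | P.rI ≤ x.2.1})) fun x _ _ q => ?_).trans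
      ((Yz_union _ _ _ _).trans ((add_le_add ?_ ((Yz_sum _ _ _ _).trans
        (Finset.sum_le_sum fun d _ => X _ (by omega)))).trans_eq
        (by rw [hb, ENNReal.ofReal_add (mul_nonneg U0 (u0 _)) (s0 j), ENNReal.ofReal_sum_of_nonneg
          fun d _ => by have := f0 (min (j + 1 - d) k); positivity])))
    · obtain ⟨-, ⟨a1, a2, a3⟩, a4⟩ := q
      refine (le_or_gt x.1 (P.c.t1 + 1 / 2)).imp (fun q => ⟨trivial, a1, a2, q⟩) fun q => ?_
      have l1 := Nat.floor_le (show 0 ≤ x.1 - P.c.t1 - 1 / 2 by linarith)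
      have l2 := Nat.lt_floor_add_one (x.1 - P.c.t1 - 1 / 2)
      generalize ⌊x.1 - P.c.t1 - 1 / 2⌋₊ = i at l1 l2
      have l3 : i < j + 2 := by exact_mod_cast (show (i : ℝ) < j + 2 by linarith)
      have l4 : j < i + W + 2 := by exact_mod_cast (show (j : ℝ) < i + W + 2 by linarith)
      refine mem_biUnion (Finset.mem_coe.2 (Finset.mem_range.2 (show j + 1 - i < W + 3 by omega))) ?_
      rw [show j + 1 - (j + 1 - i) = i by omega]
      exact ⟨trivial, ⟨a1, by linarith, by linarith⟩,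
        a4.resolve_right fun q' => by linarith [show x.1 ≤ P.c.t1 from q']⟩
    · rcases le_or_gt j W with q | q
      · rw [Nat.sub_eq_zero_of_le q]
        exact i _ _ _ _ _ (fun _ => le_rfl) q0 (by linarith)
      · have : (W : ℝ) + 1 ≤ j := by exact_mod_cast q
        exact (Yz_zero _ _ fun x _ q => by linarith [q.2.2.1, q.2.2.2]).trans_le zero_le
  have BC := mul_nonneg B0 C0
  refine sl_of (k + w + 1) (fun j => (1 + B * C) * b j) (fun j => by have := b0 j; positivity)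
    (fun j hj => ?_) (fun j hj => Yl_zero _ _ n R (N := k + w) (by
      push_cast; exact (add_assoc _ _ _).le) hj) ?_
  · rcases Nat.eq_zero_or_pos j with rfl | j0
    · refine (Yz_mono _ _ (Z' := univ ∩ Bx R1 (lo σ.c 0) (P.c.t1 + 1)) fun x _ _ q =>
        ⟨trivial, by linarith [q.2.1, le_abs_self R], q.2.2.1, by
          simpa using (show x.1 ≤ P.c.t1 + (0 : ℕ) + 1 from q.2.2.2.trans (min_le_left _ _))⟩).trans ((i _ _ _ _ _ (fun _ => le_rfl) q0
          (by linarith)).trans (ENNReal.ofReal_le_ofReal (le_trans ?_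
            (le_mul_of_one_le_left (b0 0) (by linarith)))))
      exact (show U * σ.D = U * u (0 - W) by simp [hu]).trans_le (le_add_of_nonneg_right (s0 0))
    have k1 := hB cx e0 (by linarith) (show rb - P.c.r1 ≤ _ by
      linarith [le_abs_self (rb - P.c.r1), (div_le_iff₀' e0).1 (le_sub_iff_add_le.2 hW)]) c2
      isOpen_univ isLowerSet_univ (P.c.t1 + j) (le_add_of_nonneg_right j.cast_nonneg)
    simp only [one_mul] at k1
    have s := S j (by omega)
    refine (Yz_mono _ _ (Z' := _ ∪ _) fun x _ _ q => ?_).trans ((Yz_union _ _ _ _).trans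
      ((add_le_add s (k1.trans (mul_le_mul_right ((Yz_mono _ _ fun x _ _ q => ?_).trans s)
        _))).trans_eq ?_))
    · have a1 : P.c.t1 + j ≤ x.1 := by have := q.2.2.1; rwa [lo, if_neg j0.ne'] at this
      have a2 : x.1 ≤ P.c.t1 + j + 1 := q.2.2.2.trans (min_le_left _ _)
      exact (le_total P.rI x.2.1).imp (fun e => ⟨trivial, ⟨by linarith [q.2.1, le_abs_self R], by
        linarith [W.cast_nonneg (α := ℝ)], by linarith⟩, .inl e⟩) fun e => ⟨trivial, e, a1, a2⟩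
    · exact ⟨trivial, ⟨q.2.1.1.trans q2, (le_max_left _ _).trans q.2.1.2.1, q.2.1.2.2⟩, q.2.2⟩
    · rw [← ENNReal.ofReal_mul BC, ← ENNReal.ofReal_add (b0 j) (mul_nonneg BC (b0 j))]
      congr 1; ring
  have a1 := wsum hP.Q0 hP.Q3 m (k + w + 1) (k + w + 1) u0 (· - W) fun j _ => by omega
  rw [show sm P.Q (k + w + 1) u = σ.D by simp [sm, hu, wt_zero]] at a1
  have a2 := Finset.sum_le_card_nsmul (Finset.range (W + 3)) _ _ fun d hd =>
    wsum hP.Q0 hP.Q3 m k (k + w + 1) f0 (fun j => min (j + 1 - d) k) fun j _ => by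
      have := Finset.mem_range.1 hd
      omega
  rw [Finset.sum_comm, Finset.card_range, nsmul_eq_mul] at a2
  have s1 : 0 ≤ sm P.Q k f := Finset.sum_nonneg fun j _ => mul_nonneg (wt_pos _ _).le (f0 j)
  have e : ∑ j ∈ Finset.range (k + w + 1), wt P.Q j * ((1 + B * C) * b j) = (1 + B * C) *
      (U * ∑ j ∈ Finset.range (k + w + 1), wt P.Q j * u (j - W) + (1 + A * C) * C1 *
        ∑ j ∈ Finset.range (k + w + 1), ∑ d ∈ Finset.range (W + 3),
          wt P.Q j * f (min (j + 1 - d) k)) := by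
    simp only [hb, Finset.mul_sum, ← Finset.sum_add_distrib, mul_add]
    refine Finset.sum_congr rfl fun j _ => ?_
    simp only [← Finset.mul_sum]; ring
  rw [e, mul_assoc (1 + B * C)]
  refine mul_le_mul_of_nonneg_left ((add_le_add (mul_le_mul_of_nonneg_left a1 U0)
    (mul_le_mul_of_nonneg_left a2 (mul_nonneg (add_nonneg zero_le_one (mul_nonneg A0 C0))
      c1))).trans ?_) (add_nonneg zero_le_one BC)
  push_cast
  have z1 : 0 ≤ ((m : ℝ) + 2) * 8 ^ m * (U * sm P.Q k f) := by positivity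
  have z2 : 0 ≤ ((m : ℝ) + 2) * 8 ^ m * ((W + 3) * ((1 + A * C) * C1) * σ.D) := by positivity
  linarith

end Vale.Agent.P354CP
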