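import Vale.Agent.P354CP.Wc
import Vale.Agent.P354XR.Dict

/-!
The estimates in finite time for explicit weights.
-/

open scoped ContDiff ENNReal
open Set MeasureTheory

noncomputable section

namespace Vale.Agent.P354CP

open Vale.Agent.P354XG Vale.Agent.P354XD Vale.Agent.P354XI Vale.Agent.P354Z Vale.Agent.P354CV
open Vale.Agent.P354EF
open Vale.Agent.P354BF (De)
open Vale.Agent.P354BO (tr)
open Vale.Agent.P354XT (up dn up_zero up_one dn_one dn_zero up_nonneg up_le dn_nonneg dn_le up_sm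
  dn_sm)
open Vale.Agent.P354PH (up_der dn_der up_der_out dn_der_out dn_der_eq ex_slope)
open Vale.Agent.P354XR (eta_nn eta_mono)

variable {cm κ κ' M0 M a : ℝ} {Z : Set (ℝ × ℝ)} {w w' bd : ℝ × ℝ → ℝ}

theorem Wg.congr {bd' : ℝ × ℝ → ℝ} (h : Wg cm κ M0 M a Z w bd) (e : w = w') (e' : bd = bd')
    (e'' : κ = κ') : Wg cm κ' M0 M a Z w' bd' := e ▸ e' ▸ e'' ▸ h

theorem Wg.mul0 (h0 : 0 ≤ cm) (h1 : cm ≤ 1) (h : Wg cm κ M0 M a Z w fun _ => 0)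
    (h' : Wg cm 0 M0 M a Z w' bd) :
    Wg cm κ M0 M a Z (fun p => w p * w' p) fun p => w p * bd p :=
  (h.mul h0 h1 h').congr rfl (by simp) (add_zero κ)

theorem Wg.mul00 (h0 : 0 ≤ cm) (h1 : cm ≤ 1) (h : Wg cm κ M0 M a Z w fun _ => 0)
    (h' : Wg cm 0 M0 M a Z w' fun _ => 0) :
    Wg cm κ M0 M a Z (fun p => w p * w' p) fun _ => 0 := (h.mul0 h0 h1 h').congr rfl (by simp) rfl

theorem Wg.sub {Z' : Set (ℝ × ℝ)} (h : Wg cm κ M0 M a Z w bd) (s : Z' ⊆ Z) :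
    Wg cm κ M0 M a Z' w bd := ⟨h.sw, h.sb, h.w0, h.b0, fun p hp => h.wp p (s hp)⟩

theorem wg_one : Wg cm 0 M0 M a Z (fun _ => 1) fun _ => 0 :=
  ⟨contDiff_const, contDiff_const, fun _ => zero_le_one, fun _ => le_rfl,
    fun _ _ => ⟨0, 0, c2_zero, by simp, by simp, by simp⟩⟩

theorem wg_rad (hc : 0 ≤ cm) {φ : ℝ → ℝ} (hφ : ContDiff ℝ ∞ φ) (h0 : ∀ s, 0 ≤ φ s)
    (hd : ∀ s, 0 ≤ deriv φ s) (h : ∀ p ∈ Z, deriv φ p.2 ≠ 0 → C2 cm M a p.2 0 (-1)) :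
    Wg cm 0 M0 M a Z (fun p => φ p.2) fun _ => 0 :=
  (wg_cut (φ := fun s => φ (-s)) (α := 0) (β := -1) hc (hφ.comp contDiff_neg) (fun _ => h0 _)
    (fun s => by rw [deriv_comp_neg]; exact neg_nonpos.2 (hd _)) fun p hp e => by
      rw [deriv_comp_neg] at e
      simpa using h p hp (by simpa using e)).congr (by simp) rfl rfl

/-- The parts below the levels in L, and the boxes. -/
def ZL (E : Est) (L : Set ℝ) : Set E6 := {x | rv E.sig x ∈ L}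
def Bx (ρ a b : ℝ) : Set E6 := {x | x.2.1 ≤ ρ ∧ a ≤ x.1 ∧ x.1 ≤ b}
def Tm (a b : ℝ) : Set E6 := {x | a ≤ x.1 ∧ x.1 ≤ b}

theorem tm_ms (a b : ℝ) : MeasurableSet (Tm a b) :=
  ((isClosed_le continuous_const continuous_fst).inter
    (isClosed_le continuous_fst continuous_const)).measurableSet
theorem bx_ms (ρ a b : ℝ) : MeasurableSet (Bx ρ a b) :=
  (isClosed_le continuous_snd.fst continuous_const).measurableSet.inter (tm_ms a b)

theorem Yz_cmp (E : Est) {f g : E6 → ℝ} (Z : Set E6) {T S : Set E6} (hT : MeasurableSet T)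
    (hS : MeasurableSet S) {C : ℝ} (hC : 0 ≤ C) (h : ∀ x ∈ T, f x ≤ C * S.indicator g x) :
    Yz E f (Z ∩ T) ≤ ENNReal.ofReal C * Yz E g (Z ∩ S) := by
  have e : ∀ T : Set E6, {x | x ∈ E.O1 ∧ An x ∧ x ∈ Z ∩ T} = T ∩ {x | x ∈ E.O1 ∧ An x ∧ x ∈ Z} :=
    fun T => Set.ext fun x => ⟨fun h => ⟨h.2.2.2, h.1, h.2.1, h.2.2.1⟩,
      fun h => ⟨h.2.1, h.2.2.1, h.2.2.2, h.1⟩⟩
  rw [Yz, Yz, e, e, ← Measure.restrict_restrict hT, ← Measure.restrict_restrict hS,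
    ← lintegral_indicator hS, ← lintegral_const_mul' _ _ ENNReal.ofReal_ne_top]
  refine (setLIntegral_mono' hT fun x hx => ?_).trans (setLIntegral_le_lintegral _ _)
  refine (ENNReal.ofReal_le_ofReal (h x hx)).trans ?_
  rw [ENNReal.ofReal_mul hC]
  by_cases k : x ∈ S <;> simp [k]

theorem Yz_union (E : Est) (f : E6 → ℝ) (Z Z' : Set E6) :
    Yz E f (Z ∪ Z') ≤ Yz E f Z + Yz E f Z' :=
  (lintegral_mono_set fun _ h => h.2.2.imp (fun k => ⟨h.1, h.2.1, k⟩)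
    fun k => ⟨h.1, h.2.1, k⟩).trans (lintegral_union_le _ _ _)

/-- The conclusion of EFIN. -/
def Fi (c : Cs) (E : Est) (n : ℕ) (ρ cm κ C δ : ℝ) : Prop :=
  ∀ L : Set ℝ, IsOpen L → IsLowerSet L →
    ∀ w bd : ℝ × ℝ → ℝ, ContDiff ℝ ∞ w → ContDiff ℝ ∞ bd → (∀ p, 0 ≤ w p) → (∀ p, 0 ≤ bd p) →
    (∀ x ∈ E.O1, An x → rv E.sig x ∈ L → w (tr x) ≠ 0 ∨ bd (tr x) ≠ 0 →
      Est.Ab c x ∧ x.2.1 ≤ ρ ∧ Wp cm κ c.M E.M E.a w bd (tr x) ∧ Sml c E n δ x) →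
    Yz E (fun x => w (tr x) * E.eta n x) {x | rv E.sig x ∈ L} ≤
      ENNReal.ofReal C * Yz E (fun x => bd (tr x) * E.eta n x) {x | rv E.sig x ∈ L}

/-- The context. -/
structure Cx (c : Cs) (E : Est) (n : ℕ) (ρ cm κ C : ℝ) : Prop where
  c0 : 0 ≤ cm
  c1 : cm ≤ 1
  C0 : 0 ≤ C
  rad : ∀ x ∈ E.O1, c.r1 ≤ x.2.1
  kc : ∀ r, c.r1 ≤ r → 1 ≤ hs c.M (E.M, E.a, r) ∧ hs c.M (E.M, E.a, r) ≤ 5 ∧
    ∀ m ∈ Icc (0 : ℝ) (3 / 2), (r < 6 * c.M → m = 0) →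
      C2 cm E.M E.a r 1 (m - 1 * hs c.M (E.M, E.a, r))
  ab : ∀ x ∈ E.O1, c.t1 - 2 ≤ x.1 → Est.Ab c x
  fi : ∃ δ, Fi c E n ρ cm κ C δ ∧
    ∀ x ∈ E.O1, An x → x.2.1 ≤ ρ → c.t1 - 2 ≤ x.1 → Sml c E n δ x

variable {c : Cs} {E : Est} {n : ℕ} {ρ C : ℝ} {L : Set ℝ}

theorem Cx.core (h : Cx c E n ρ cm κ C) (hL : IsOpen L) (hL' : IsLowerSet L)
    (hw : Wg cm κ c.M E.M E.a Z w bd) (hs : ∀ x ∈ E.O1, rv E.sig x ∈ L →
      w (tr x) ≠ 0 ∨ bd (tr x) ≠ 0 → c.t1 - 2 ≤ x.1 ∧ x.2.1 ≤ ρ ∧ tr x ∈ Z)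
    {T S : Set E6} (hT : MeasurableSet T) (hS : MeasurableSet S) {f g : E6 → ℝ} {c1 c2 : ℝ}
    (h1 : 0 ≤ c1) (h2 : 0 ≤ c2) (hf : ∀ x ∈ T, f x ≤ c1 * w (tr x))
    (hg : ∀ x, bd (tr x) ≤ c2 * S.indicator g x) :
    Yz E (fun x => f x * E.eta n x) (ZL E L ∩ T) ≤
      ENNReal.ofReal (c1 * c2 * C) * Yz E (fun x => g x * E.eta n x) (ZL E L ∩ S) := by
  obtain ⟨δ, hF, sm⟩ := h.fi
  have a1 := Yz_cmp E (f := fun x => f x * E.eta n x) (g := fun x => w (tr x) * E.eta n x) (ZL E L)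
    hT .univ h1 fun x hx => by
      rw [indicator_univ, ← mul_assoc]
      exact mul_le_mul_of_nonneg_right (hf x hx) (eta_nn E n x)
  have a2 := Yz_cmp E (f := fun x => bd (tr x) * E.eta n x) (g := fun x => g x * E.eta n x)
    (ZL E L) .univ hS h2 fun x _ => by
      refine (mul_le_mul_of_nonneg_right (hg x) (eta_nn E n x)).trans_eq ?_
      by_cases k : x ∈ S <;> simp [k, mul_assoc]
  rw [inter_univ] at a1 a2
  refine a1.trans ((mul_le_mul_right ((hF L hL hL' w bd hw.sw hw.sb hw.w0 hw.b0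
    fun x hx an hl hn => ?_).trans (mul_le_mul_right a2 _)) _).trans_eq ?_)
  · have k := hs x hx hl hn
    exact ⟨h.ab x hx k.1, k.2.1, hw.wp _ k.2.2, sm x hx an k.2.1 k.1⟩
  · rw [ENNReal.ofReal_mul (mul_nonneg h1 h2), ENNReal.ofReal_mul h1]; ring

/-- The region r ≥ r1. -/
def Z0 (c : Cs) : Set (ℝ × ℝ) := {p | c.r1 ≤ p.2}

theorem Cx.exp (h : Cx c E n ρ cm κ C) (hκ : 0 ≤ κ) (t : ℝ) :
    Wg cm κ c.M E.M E.a (Z0 c) (fun p => Real.exp (-κ * (p.1 - t))) fun _ => 0 := by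
  have d : ∀ s, deriv (fun s => Real.exp (-κ * (s - t))) s = -κ * Real.exp (-κ * (s - t)) :=
    fun s => ((((hasDerivAt_id s).sub_const t).const_mul (-κ)).exp.deriv).trans (by simp [mul_comm])
  refine (wg_dec (φ := fun s => Real.exp (-κ * (s - t))) (α := 1) (β := 0) (by fun_prop)
    (fun _ => (Real.exp_pos _).le) (fun s => by
      rw [d]; exact mul_nonpos_of_nonpos_of_nonneg (by linarith) (Real.exp_pos _).le)
    fun p hp => ⟨?_, fun _ => (h.kc _ hp).2.2 0 ⟨le_rfl, by norm_num⟩ fun _ => rfl⟩).congr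
    (by simp) rfl rfl
  rw [d]
  nlinarith [mul_nonneg hκ (Real.exp_pos (-κ * (1 * p.1 + 0 * p.2 - t))).le, (h.kc _ hp).1]

theorem Cx.dnt (h : Cx c E n ρ cm κ C) {s t : ℝ} (e : s < t) :
    Wg cm 0 c.M E.M E.a (Z0 c) (fun p => dn s t p.1) fun _ => 0 :=
  (wg_cut (α := 1) (β := 0) h.c0 (dn_sm s t) (dn_nonneg s t) (dn_der e)
    fun p hp _ => (h.kc _ hp).2.2 0 ⟨le_rfl, by norm_num⟩ fun _ => rfl).congr (by simp) rfl rfl

theorem up_dsm (s t : ℝ) : ContDiff ℝ ∞ (deriv (up s t)) :=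
  (contDiff_infty_iff_deriv.1 (up_sm s t)).2

theorem Cx.upt (h : Cx c E n ρ cm κ C) {s t : ℝ} (e : s < t) :
    Wg cm 0 c.M E.M E.a (Z0 c) (fun p => up s t p.1) fun p => 5 * deriv (up s t) p.1 :=
  (wg_bad (α := 1) (β := 0) (B := 5) (up_sm s t) (up_nonneg s t) (up_dsm s t)
    (fun x => (abs_of_nonneg (up_der e x)).le) (by norm_num) fun p hp => by
      have := h.kc _ hp
      exact abs_le.2 ⟨by linarith [this.2.1], by linarith [this.1]⟩).congr (by simp) (by simp) rfl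

/-- Forward in time, with a good weight g. -/
theorem rowG (κ l : ℝ) (hκ : 0 ≤ κ) : ∃ A, 0 ≤ A ∧ ∀ {c : Cs} {E : Est} {n : ℕ} {ρ cm C : ℝ},
    Cx c E n ρ cm κ C → ∀ {L : Set ℝ}, IsOpen L → IsLowerSet L → ∀ (t : ℝ) (g : ℝ × ℝ → ℝ),
    c.t1 - 2 ≤ t → Wg cm 0 c.M E.M E.a {p | c.r1 ≤ p.2 ∧ p.1 ≤ t + l + 1} g (fun _ => 0) →
    (∀ x ∈ E.O1, rv E.sig x ∈ L → t ≤ x.1 → g (tr x) ≠ 0 → x.2.1 ≤ ρ) →
    Yz E (fun x => g (tr x) * E.eta n x) (ZL E L ∩ Tm (t + 1 / 2) (t + l)) ≤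
      ENNReal.ofReal (A * C) * Yz E (fun x => g (tr x) * E.eta n x) (ZL E L ∩ Tm t (t + 1 / 2)) := by
  obtain ⟨B, B1, hB⟩ := ex_slope (show (0 : ℝ) < 1 / 2 by norm_num)
  refine ⟨Real.exp (κ * l) * (5 * B), by positivity, fun {c E n ρ cm C} h L hL hL' t g ht hg hr => ?_⟩
  have e1 : t < t + 1 / 2 := by linarith
  have e2 : t + l < t + l + 1 := by linarith
  have s : {p : ℝ × ℝ | c.r1 ≤ p.2 ∧ p.1 ≤ t + l + 1} ⊆ Z0 c := fun _ h => h.1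
  refine h.core hL hL' (((((h.exp hκ t).mul00 h.c0 h.c1 (h.dnt e2)).sub s).mul00 h.c0 h.c1
    hg).mul0 h.c0 h.c1 ((h.upt e1).sub s)) (fun x hx hl hn => ?_) (tm_ms _ _) (tm_ms _ _)
    (Real.exp_pos _).le (by positivity) (fun x hx => ?_) fun x => ?_
  · have k : (dn (t + l) (t + l + 1) x.1 ≠ 0 ∧ g (tr x) ≠ 0) ∧ t ≤ x.1 := by
      rcases hn with hn | hn
      · simp only [mul_ne_zero_iff] at hn
        exact ⟨⟨hn.1.1.2, hn.1.2⟩, by_contra fun k => hn.2 (up_zero e1 (not_le.1 k).le)⟩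
      · simp only [mul_ne_zero_iff] at hn
        exact ⟨⟨hn.1.1.2, hn.1.2⟩, by_contra fun k => hn.2.2 (up_der_out e1 fun k' => k k'.1)⟩
    exact ⟨ht.trans k.2, hr x hx hl k.2 k.1.2, h.rad x hx,
      by_contra fun k' => k.1.1 (dn_zero e2 (not_le.1 k').le)⟩
  · show _ ≤ _ * (Real.exp (-κ * (x.1 - t)) * dn _ _ x.1 * g (tr x) * up _ _ x.1)
    rw [dn_one e2 hx.2, up_one e1 hx.1, mul_one, mul_one, ← mul_assoc, ← Real.exp_add]
    exact le_mul_of_one_le_left (hg.w0 _) (Real.one_le_exp (by nlinarith [hx.2]))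
  · show Real.exp (-κ * (x.1 - t)) * dn _ _ x.1 * g (tr x) * (5 * deriv (up _ _) x.1) ≤ _
    by_cases k : x ∈ Tm t (t + 1 / 2)
    · rw [indicator_of_mem k, mul_comm (5 * B)]
      have := hg.w0 (tr x)
      have := up_der e1 x.1
      have a1 : Real.exp (-κ * (x.1 - t)) * dn (t + l) (t + l + 1) x.1 ≤ 1 :=
        mul_le_one₀ (Real.exp_le_one_iff.2 (by nlinarith [k.1])) (dn_nonneg _ _ _) (dn_le _ _ _)
      exact mul_le_mul (mul_le_of_le_one_left (hg.w0 _) a1) (by linarith [hB t x.1])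
        (by positivity) (hg.w0 _)
    · rw [up_der_out e1 k, indicator_of_notMem k]; simp

/-- Admissible radial weights. -/
structure Rw (c : Cs) (E : Est) (cm : ℝ) (φ : ℝ → ℝ) : Prop where
  sm : ContDiff ℝ ∞ φ
  nn : ∀ s, 0 ≤ φ s
  up : ∀ s, 0 ≤ deriv φ s
  c2 : ∀ r, c.r1 ≤ r → deriv φ r ≠ 0 → C2 cm E.M E.a r 0 (-1)

theorem rw_one : Rw c E cm fun _ => 1 :=
  ⟨contDiff_const, fun _ => zero_le_one, fun _ => by simp, fun _ _ h => by simp at h⟩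

/-- UNIT: forward in time with the causal cut. -/
theorem rowU (κ l : ℝ) (hκ : 0 ≤ κ) (hl : 0 ≤ l) : ∃ A, 0 ≤ A ∧ ∀ {c : Cs} {E : Est} {n : ℕ}
    {ρ cm C : ℝ}, Cx c E n ρ cm κ C → ∀ {L : Set ℝ}, IsOpen L → IsLowerSet L →
    ∀ (t R : ℝ) (φ : ℝ → ℝ), c.t1 - 2 ≤ t → 6 * c.M ≤ R → R + l + 2 ≤ ρ → Rw c E cm φ →
    Yz E (fun x => φ x.2.1 * E.eta n x) (ZL E L ∩ Bx R (t + 1 / 2) (t + l)) ≤
      ENNReal.ofReal (A * C) *
        Yz E (fun x => φ x.2.1 * E.eta n x) (ZL E L ∩ Bx (R + l + 2) t (t + 1 / 2)) := by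
  obtain ⟨A, A0, hA⟩ := rowG κ l hκ
  refine ⟨A, A0, fun {c E n ρ cm C} h L hL hL' t R φ ht hR hρ hφ => ?_⟩
  set b := t + l + 1 + 3 / 2 * R with hb
  have e : b < b + 1 := lt_add_one b
  have z : ∀ x : E6, t ≤ x.1 → dn b (b + 1) (1 * x.1 + 3 / 2 * x.2.1) ≠ 0 → x.2.1 ≤ R + l + 2 :=
    fun x k k' => by_contra fun q => k' (dn_zero e (by linarith [not_le.1 q]))
  have k := hA h hL hL' t (fun p => φ p.2 * dn b (b + 1) (1 * p.1 + 3 / 2 * p.2)) ht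
    ((wg_rad h.c0 hφ.sm hφ.nn hφ.up fun p hp => hφ.c2 _ hp.1).mul00 h.c0 h.c1
      (wg_cut h.c0 (dn_sm _ _) (dn_nonneg _ _) (dn_der e) fun p hp q =>
        (h.kc _ hp.1).2.2 _ ⟨by norm_num, le_rfl⟩ fun q' => (q (dn_der_out e fun q'' => by
          linarith [q''.1, hp.2])).elim))
    fun x _ _ k k' => (z x k (mul_ne_zero_iff.1 k').2).trans hρ
  have a1 := Yz_cmp E (f := fun x => φ x.2.1 * E.eta n x)
    (g := fun x => φ x.2.1 * dn b (b + 1) (1 * x.1 + 3 / 2 * x.2.1) * E.eta n x) (ZL E L)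
    (bx_ms R (t + 1 / 2) (t + l)) (tm_ms (t + 1 / 2) (t + l)) zero_le_one fun x hx => by
      rw [indicator_of_mem (show x ∈ Tm _ _ from hx.2), dn_one e (by linarith [hx.1, hx.2.2])]
      simp
  have a2 := Yz_cmp E (g := fun x => φ x.2.1 * E.eta n x)
    (f := fun x => φ x.2.1 * dn b (b + 1) (1 * x.1 + 3 / 2 * x.2.1) * E.eta n x) (ZL E L)
    (tm_ms t (t + 1 / 2)) (bx_ms (R + l + 2) t (t + 1 / 2)) zero_le_one fun x hx => by
      refine le_trans ?_ (one_mul _).ge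
      by_cases q : x ∈ Bx (R + l + 2) t (t + 1 / 2)
      · rw [indicator_of_mem q]
        exact mul_le_mul_of_nonneg_right (mul_le_of_le_one_right (hφ.nn _) (dn_le _ _ _))
          (eta_nn E n x)
      · rw [indicator_of_notMem q, (by_contra fun q' => q ⟨z x hx.1 q', hx⟩ :
          dn b (b + 1) (1 * x.1 + 3 / 2 * x.2.1) = 0)]
        simp
  rw [ENNReal.ofReal_one, one_mul] at a1 a2
  exact a1.trans (k.trans (mul_le_mul_right a2 _))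

/-- INNER: the interior from the shell ra ≤ r ≤ rb and the initial slab. -/
theorem rowI (κ ra rb W : ℝ) (hκ : 0 ≤ κ) (hr : ra < rb) (hW : 1 ≤ W) : ∃ A, 0 ≤ A ∧
    ∀ {c : Cs} {E : Est} {n : ℕ} {ρ cm C ε : ℝ}, Cx c E n ρ cm κ C → 0 < ε → rb ≤ ρ →
    rb - c.r1 ≤ ε * (W - 1) → (∀ r, c.r1 ≤ r → r ≤ rb →
      C2 cm E.M E.a r (-ε) (-1 - -ε * hs c.M (E.M, E.a, r))) →
    ∀ {L : Set ℝ}, IsOpen L → IsLowerSet L → ∀ t, c.t1 ≤ t →
    Yz E (fun x => 1 * E.eta n x) (ZL E L ∩ Bx ra t (t + 1)) ≤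
      ENNReal.ofReal (A * C) * Yz E (fun x => 1 * E.eta n x)
        (ZL E L ∩ (Bx rb (max (t - W) (c.t1 - 1)) (t + 2) ∩ ({x | ra ≤ x.2.1} ∪ {x | x.1 ≤ c.t1}))) := by
  obtain ⟨B, B1, hB⟩ := ex_slope one_pos
  obtain ⟨D, D1, hD⟩ := ex_slope (sub_pos.2 hr)
  refine ⟨Real.exp κ * (Real.exp (κ * W) * (5 * B + D)), by positivity,
    fun {c E n ρ cm C ε} h hε hρ hW' hc L hL hL' t ht => ?_⟩
  have e1 : c.t1 - 1 < c.t1 - 1 + 1 := lt_add_one _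
  have e2 : t + 1 < t + 2 := by linarith
  set b := -(c.r1 + ε * t) with hb
  have e3 : b < b + ε := by linarith
  have s : {p : ℝ × ℝ | c.r1 ≤ p.2 ∧ p.2 ≤ rb} ⊆ Z0 c := fun _ h => h.1
  have w1 := (wg_bad (cm := cm) (M0 := c.M) (M := E.M) (a := E.a) (α := 0) (β := 1) (B := 1)
    (Z := {p : ℝ × ℝ | c.r1 ≤ p.2 ∧ p.2 ≤ rb}) (dn_sm ra rb) (dn_nonneg ra rb) (up_dsm ra rb)
    (fun x => by rw [dn_der_eq, abs_neg, abs_of_nonneg (up_der hr x)]) (by simp)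
    (by simp)).congr (w' := fun p => dn ra rb p.2) (bd' := fun p => deriv (up ra rb) p.2)
    (by simp) (by simp) rfl
  have g := (((h.exp hκ t).mul00 h.c0 h.c1 (h.dnt e2)).sub s).mul00 h.c0 h.c1
    (wg_cut (α := -ε) (β := -1) h.c0 (dn_sm _ _) (dn_nonneg _ _) (dn_der e3)
      fun p hp _ => hc _ hp.1 hp.2)
  have sup : ∀ x : E6, dn ra rb x.2.1 * (5 * deriv (up (c.t1 - 1) (c.t1 - 1 + 1)) x.1) +
      up (c.t1 - 1) (c.t1 - 1 + 1) x.1 * deriv (up ra rb) x.2.1 ≠ 0 →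
      x.2.1 ≤ rb ∧ c.t1 - 1 ≤ x.1 ∧ (ra ≤ x.2.1 ∨ x.1 ≤ c.t1) := fun x k => by
    refine ⟨by_contra fun q => k ?_, by_contra fun q => k ?_, by_contra fun q => k ?_⟩
    · rw [dn_zero hr (not_le.1 q).le, up_der_out hr fun q' => q q'.2]; simp
    · rw [up_zero e1 (not_le.1 q).le, up_der_out e1 fun q' => q q'.1]; simp
    · rw [up_der_out hr fun q' => q (Or.inl q'.1), up_der_out e1 fun q' => q (Or.inr (by
        linarith [q'.2]))]; simp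
  refine le_trans (Yz_mono E _ (Z' := ZL E L ∩ (Bx ra t (t + 1) ∩ {x | c.r1 ≤ x.2.1}))
    fun x hx _ k => ⟨k.1, k.2, h.rad x hx⟩) ?_
  refine h.core hL hL' (g.mul0 h.c0 h.c1 ((w1.mul h.c0 h.c1 ((h.upt e1).sub s)).congr rfl rfl
    (add_zero 0))) (fun x hx hl hn => ?_) ((bx_ms _ _ _).inter
      (isClosed_le continuous_const continuous_snd.fst).measurableSet) ((bx_ms _ _ _).inter
      ((isClosed_le continuous_const continuous_snd.fst).union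
        (isClosed_le continuous_fst continuous_const)).measurableSet)
    (Real.exp_pos _).le (by positivity) (fun x hx => ?_) fun x => ?_
  · have k : x.2.1 ≤ rb ∧ c.t1 - 1 ≤ x.1 := by
      rcases hn with hn | hn
      · simp only [mul_ne_zero_iff] at hn
        exact ⟨by_contra fun k => hn.2.1 (dn_zero hr (not_le.1 k).le),
          by_contra fun k => hn.2.2 (up_zero e1 (not_le.1 k).le)⟩
      · exact (sup x (mul_ne_zero_iff.1 hn).2).imp_right And.left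
    exact ⟨by linarith [k.2], k.1.trans hρ, h.rad x hx, k.1⟩
  · show _ ≤ _ * (Real.exp (-κ * (x.1 - t)) * dn _ _ x.1 * dn _ _ (-ε * x.1 + -1 * x.2.1) *
      (dn _ _ x.2.1 * up _ _ x.1))
    rw [dn_one e2 hx.1.2.2, up_one e1 (by linarith [hx.1.2.1]), dn_one hr hx.1.1, dn_one e3 (by
      nlinarith [hx.1.2.1, show c.r1 ≤ x.2.1 from hx.2]), mul_one, mul_one, mul_one, mul_one,
      ← Real.exp_add]
    exact Real.one_le_exp (by nlinarith [hx.1.2.2])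
  · show Real.exp (-κ * (x.1 - t)) * dn _ _ x.1 * dn _ _ (-ε * x.1 + -1 * x.2.1) *
      (dn _ _ x.2.1 * (5 * deriv (up _ _) x.1) + up _ _ x.1 * deriv (up _ _) x.2.1) ≤ _
    by_cases k : x ∈ Bx rb (max (t - W) (c.t1 - 1)) (t + 2) ∩ ({x | ra ≤ x.2.1} ∪ {x | x.1 ≤ c.t1})
    · rw [indicator_of_mem k, mul_one]
      have a0 := up_der e1 x.1
      have a2 := up_der hr x.2.1
      have a3 := hD ra x.2.1
      rw [add_sub_cancel] at a3
      refine mul_le_mul ((mul_le_of_le_one_right (mul_nonneg (Real.exp_pos _).le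
        (dn_nonneg _ _ _)) (dn_le _ _ _)).trans ((mul_le_of_le_one_right (Real.exp_pos _).le
        (dn_le _ _ _)).trans (Real.exp_le_exp.2 (by
          nlinarith [(le_max_left _ _).trans k.1.2.1])))) (add_le_add
        ((mul_le_of_le_one_left (by positivity) (dn_le _ _ _)).trans (by linarith [hB (c.t1 - 1) x.1]))
        ((mul_le_of_le_one_left a2 (up_le _ _ _)).trans a3)) (add_nonneg (mul_nonneg
        (dn_nonneg _ _ _) (by positivity)) (mul_nonneg (up_nonneg _ _ _) a2)) (Real.exp_pos _).le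
    · rw [indicator_of_notMem k, mul_zero]
      refine le_of_eq (by_contra fun q => k ?_)
      simp only [mul_eq_zero, not_or] at q
      have k1 := sup x q.2
      refine ⟨⟨k1.1, max_le (by_contra fun q' => q.1.2 (dn_zero e3 ?_)) k1.2.1,
        by_contra fun q' => q.1.1.2 (dn_zero e2 (not_le.1 q').le)⟩, k1.2.2⟩
      nlinarith [not_le.1 q', k1.1]

end Vale.Agent.P354CP
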