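import Vale.Agent.P354YF.Fte4
import Vale.Agent.P354YK.Ft
import Vale.Agent.P354YK.Ray
import Vale.Agent.P354CO.Defs

/-!
The far table of the skeleton from the tables of the far zone.
-/

open Set Filter

noncomputable section

namespace Vale.Agent.P354CP

open Vale.Agent.P354XG Vale.Agent.P354XD Vale.Agent.P354XI Vale.Agent.P354XR Vale.Agent.P354Z
open Vale.Agent.P354XG.Geo (hf two_hf)
open Vale.Agent.P354XZ (Ch Gi NF)
open Vale.Agent.P354XZ.NF (nz)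
open Vale.Agent.P354YK (Fm Og alp gO Tf fz wu laD ray wu_pos)
open Vale.Agent.P354YF hiding hf two_hf sq
open Vale.Agent.P354YS (Cj cj_sy)
open Vale.Agent.P354YL (Tb Od)
open Vale.Agent.P354FA (Vw)

section alg
variable {A : Type} [CommRing A] [Algebra ℂ A]

theorem laD_eq {K : Hp A} {p : Pm A} {S : Geo A} {F : Fr A} (o : Og K p S F) (i : Fin 3) :
    2 * S.dot (K.prj (kk K p).R) (K.prj (Om K i)) -
      2 * (K.geo (gO K p) fun _ _ _ => 0).dot (K.prj (kk K p).R) (K.prj (Om K i)) =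
    hf A * (ii A * wb K i * (K.z 1 * alp K p S F.l) +
      -(ii A * wm K i) * K.c (K.z 1 * alp K p S F.l)) := by
  have k := kk_is o.is o.pis
  have eO : Om K i = (kk K p).V 0 0 (-(hf A * ii A * wm K i)) (hf A * ii A * wb K i)
      (-(hf A * ii A * ww K i)) (hf A * ii A * ww K i) := Derivation.ext fun f => by
    rw [Om_eq o.is, KC.V_ap]
    change _ = _ + _ * K.P f + _ * K.Q f + _ * K.H f + _ * K.B f
    ring
  have eR : (kk K p).R = (kk K p).V 0 1 0 0 0 0 := Derivation.ext fun f => by simp [KC.V_ap]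
  have e : F.l = K.N • K.prj (kk K p).R := by
    rw [← o.prj4.1, o.th]; exact funext fun a => P354YK.oth_ap _ _
  have a := o.l_V 0 0 (-(hf A * ii A * wm K i)) (hf A * ii A * wb K i)
      (-(hf A * ii A * ww K i)) (hf A * ii A * ww K i)
  rw [← eO] at a
  nth_rw 1 [e] at a
  rw [Geo.dot_smul_left] at a
  have b : K.z 1 * alp K p S F.l = -(P354YK.la K S F.l 1 + ii A * (kk K p).a * (kk K p).s) := by
    show K.z 1 * -((P354YK.la K S F.l 1 + ii A * p.a * K.kc.s) * K.ri) =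
      -(P354YK.la K S F.l 1 + ii A * p.a * K.kc.s)
    linear_combination -(P354YK.la K S F.l 1 + ii A * p.a * K.kc.s) * o.is.hr
  have c := congrArg K.c o.c_la
  rw [o.is.cc] at c
  have d : K.c (ii A * (kk K p).a * (kk K p).s) = -(ii A * (kk K p).a * (kk K p).sb) := by
    change (kk K p).c _ = _
    rw [map_mul, map_mul, k.c_ii, k.c_a, k.c_s]; ring
  rw [b, map_neg, map_add, ← c, d]
  nth_rw 2 [eR, eO]
  rw [P354YK.dot_O o.is]
  simp only [P354YK.gBo, KC.qf]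
  linear_combination -a - 2 * S.dot (K.prj (kk K p).R) (K.prj (Om K i)) * o.is.hN -
    (kk K p).a * ii A * ((kk K p).s * (hf A * ii A * wb K i) +
      (kk K p).sb * (hf A * ii A * wm K i)) * two_hf (A := A)

variable {N Ni ri al : A} {d : Ix → A} (P : A → Prop) (add : ∀ {f g}, P f → P g → P (f + g))
  (sub : ∀ {f g}, P f → P g → P (f - g)) (mI : ∀ {f}, P f → P (Ni * f))
  (mN : ∀ {f}, P f → P (N * f)) (mH : ∀ {f}, P f → P (hf A * f)) (hN : N * Ni = 1)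
include add sub mI mH hN

theorem inv_b (h : ∀ i, P (gf N Ni ri d al (.inl i))) :
    (∀ k ≠ 1, P (d (.inl (1, k)))) ∧ P (ri * d (.inl (1, 1))) ∧ P (d (.inr 4)) := by
  have q : ∀ {f}, P (N * f) → P f := fun {f} k => by
    have := mI k; rwa [← mul_assoc, mul_comm Ni, hN, one_mul] at this
  have t := two_hf (A := A)
  have a4 : P (N * d (.inl (1, 4))) := by
    convert add (mH (h 0)) (h 6) using 1
    simp only [gf, Sum.elim_inl, Matrix.cons_val]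
    linear_combination -(N * d (.inl (1, 4))) * t
  have a5 : P (N * d (.inl (1, 5))) := by
    convert sub (mH (h 0)) (h 6) using 1
    simp only [gf, Sum.elim_inl, Matrix.cons_val]
    linear_combination -(N * d (.inl (1, 5))) * t
  refine ⟨fun k hk => ?_, q (h 3), q (q (h 1))⟩
  fin_cases k
  exacts [q (h 2), absurd rfl hk, q (h 4), q (h 5), q a4, q a5]

include mN in
theorem inv_g (h : ∀ i, P (gf N Ni ri d al (.inr i))) :
    (∀ k ≥ 2, P (d (.inl (2, k)))) ∧ P (ri * d (.inl (2, 1))) ∧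
      ∀ k, k = 1 ∨ k = 2 ∨ k = 3 ∨ k = 5 ∨ k = 6 → P (d (.inr k)) := by
  have q : ∀ {f}, P (N * f) → P f := fun {f} k => by
    have := mI k; rwa [← mul_assoc, mul_comm Ni, hN, one_mul] at this
  have q' : ∀ {f}, P (Ni * f) → P f := fun {f} k => by
    have := mN k; rwa [← mul_assoc, hN, one_mul] at this
  have t := two_hf (A := A)
  have a4 : P (d (.inl (2, 4))) := by
    convert add (mH (h (.inl 3))) (h (.inl 8)) using 1
    simp only [gf, Sum.elim_inl, Sum.elim_inr, Matrix.cons_val]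
    linear_combination -d (.inl (2, 4)) * t
  have a5 : P (d (.inl (2, 5))) := by
    convert sub (mH (h (.inl 3))) (h (.inl 8)) using 1
    simp only [gf, Sum.elim_inl, Sum.elim_inr, Matrix.cons_val]
    linear_combination -d (.inl (2, 5)) * t
  refine ⟨fun k hk => ?_, h (.inl 5), ?_⟩
  · fin_cases k
    exacts [absurd hk (by decide), absurd hk (by decide), h (.inl 6), h (.inl 7), a4, a5]
  · rintro _ (rfl | rfl | rfl | rfl | rfl)
    exacts [q' (h (.inr 0)), q' (h (.inr 1)), h (.inl 0), q (h (.inl 1)), q (h (.inl 2))]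

end alg

section ch
variable {A : Type} [CommRing A] [Algebra ℂ A] {C : Ch A} (h : C.Is) {S : Type} {p : S → C.Pt}
  {e : S → ℝ} {n : ℕ} {a b c : ℝ} {f : A}
include h

theorem cm_r (k : Cj p (fun σ => e σ * C.at' (C.mon a b c) (p σ)) n f) :
    Cj p (fun σ => e σ * C.at' (C.mon (1 + a) (0 + b) (0 + c)) (p σ)) n (C.r * f) := by
  obtain ⟨K, K0, hK⟩ := sy_jet h (sy_r h) n
  obtain ⟨B, B0, hB⟩ := k
  refine ⟨K * B, mul_nonneg K0 B0, fun σ => (hK f _).trans ?_⟩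
  beta_reduce
  rw [neg_neg, Real.rpow_one, ← at_mon_mul h, at_r1, mul_assoc]
  exact mul_le_mul_of_nonneg_left ((mul_le_mul_of_nonneg_left (hB σ) (rr_pos h _).le).trans_eq
    (by ring)) K0

theorem ut_wu {s : ℝ} (s0 : 0 ≤ s) (s2 : s ≤ 2) (x : C.Pt) :
    C.at' (C.mon 0 0 (-s)) x ≤ 4 * (1 + |C.uu x|) ^ (-s) := by
  have u := one_le_ut h x.1 (C.uu x)
  have v := ut_ge (C := C) x.1 (C.uu x)
  have k := Real.rpow_le_rpow_of_nonpos (x := (1 + |C.uu x|) / 2) (by positivity)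
    (show _ ≤ C.ut x.1 (C.uu x) by linarith) (neg_nonpos.2 s0)
  rw [Real.div_rpow (by positivity) zero_le_two, Real.rpow_neg zero_le_two, div_inv_eq_mul] at k
  have w : (2 : ℝ) ^ s ≤ 4 := (Real.rpow_le_rpow_of_exponent_le one_le_two s2).trans_eq (by norm_num)
  simp only [Ch.at', Ch.mon, Real.rpow_zero, one_mul]
  exact k.trans ((mul_le_mul_of_nonneg_left w (by positivity)).trans_eq (mul_comm _ _))

theorem cm_wu (e0 : ∀ σ, 0 ≤ e σ) (s : ℝ) (q : 0 ≤ s ∧ s ≤ 2 ∧ a + b ≤ 0 ∧ b + c ≤ -s ∧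
    a + b + c ≤ -s ∧ -3 ≤ b ∧ b ≤ 3) (k : Cj p (fun σ => e σ * C.at' (C.mon a b c) (p σ)) n f) :
    Cj p (fun σ => e σ * (1 + |C.uu (p σ)|) ^ (-s)) n f := by
  obtain ⟨B, B0, hB⟩ := k
  obtain ⟨q1, q2, q3, q4, q5, q6, q7⟩ := q
  refine ⟨B * (64 * 4), by positivity, fun σ => (hB σ).trans ((mul_le_mul_of_nonneg_left
    (mul_le_mul_of_nonneg_left ((at_le' h (a' := 0) (b' := 0) (e' := -s) (by linarith) (by linarith)
      (by linarith) (abs_le.2 ⟨by linarith, by linarith⟩) _).trans (mul_le_mul_of_nonneg_left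
        (ut_wu h q1 q2 _) (by norm_num))) (e0 σ)) B0).trans_eq (by ring))⟩

theorem dt_ge (k : Fin 5) (x : C.Pt) :
    C.at' (C.mon 0 0 (12 / 5)) x ≤ 64 * (C.rr x * C.at' (C.Dt 0 k) x) := by
  have q : ∀ a b c a' b' c' : ℝ, C.at' (C.mon a b c) x * C.at' (C.mon a' b' c') x ≤
      C.at' (C.Dw 1 0 k) x → 0 ≤ a + a' → 0 ≤ b + b' → b + b' ≤ 3 → 27 / 10 ≤ b + b' + (c + c') →
      C.at' (C.mon 0 0 (12 / 5)) x ≤ 64 * (C.rr x * C.at' (C.Dt 0 k) x) :=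
    fun a b c a' b' c' q q1 q2 q3 q4 => by
      refine le_trans ?_ (mul_le_mul_of_nonneg_left (mul_le_mul_of_nonneg_left
        (mul_le_mul_of_nonneg_left q (at_pos h 0 0 (-3 / 10) x).le) (rr_pos h x).le) (by norm_num))
      change _ ≤ 64 * (_ * (C.at' (C.mon _ _ _) x * _))
      rw [← at_r1, at_mon_mul h, at_mon_mul h, at_mon_mul h]
      exact at_le' h (by linarith) (by linarith) (by linarith) (abs_le.2 ⟨by linarith, by linarith⟩) x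
  have p := fun a b c => (at_pos h a b c x).le
  have o : ∀ φ, C.at' (1 * φ) x = C.at' φ x := fun φ => by rw [one_mul]
  fin_cases k
  · exact q 1 0 0 (3 / 20) (14 / 5 - 0) 0 (le_add_of_le_of_nonneg (congrArg _ (o _)).ge
      (mul_nonneg (p ..) ((p ..).trans (o _).ge))) (by norm_num) (by norm_num) (by norm_num)
      (by norm_num)
  · exact q 1 0 0 (3 / 20) (14 / 5 - 0) 0 (le_add_of_le_of_nonneg (congrArg _ (o _)).ge
      (mul_nonneg (p ..) (p ..))) (by norm_num) (by norm_num) (by norm_num) (by norm_num)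
  · exact q 1 0 0 (3 / 20) (14 / 5 - 0) 0 (le_add_of_nonneg_right (mul_nonneg (p ..) (p ..)))
      (by norm_num) (by norm_num) (by norm_num) (by norm_num)
  · exact q 1 0 0 (3 / 20) (17 / 10 - 0) (11 / 10) (le_add_of_nonneg_right
      (mul_nonneg (p ..) (p ..))) (by norm_num) (by norm_num) (by norm_num) (by norm_num)
  · exact q (17 / 20) 0 0 0 (-0) (14 / 5) (le_add_of_nonneg_right le_rfl)
      (by norm_num) (by norm_num) (by norm_num) (by norm_num)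

theorem jet_dt {x : C.Pt} {k : Fin 5} {y e : ℝ} (y0 : 0 ≤ y) (e0 : 0 ≤ e)
    (q : C.rr x * C.at' (C.Dt 0 k) x * y ^ 2 ≤ e ^ 2) :
    y ≤ 8 * (e * C.at' (C.mon 0 0 (-6 / 5)) x) := by
  have p := at_pos h 0 0 (-6 / 5) x
  have m : C.at' (C.mon 0 0 (12 / 5)) x * C.at' (C.mon 0 0 (-6 / 5)) x ^ 2 = 1 := by
    rw [sq, at_mon_mul h, at_mon_mul h, ← at_r0 x]; norm_num
  refine le_of_sq_le_sq₀ y0 (by positivity) ?_
  have := mul_le_mul_of_nonneg_right ((mul_le_mul_of_nonneg_right (dt_ge h k x) (sq_nonneg y)).trans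
    ((mul_assoc _ _ _).trans_le (mul_le_mul_of_nonneg_left q (by norm_num))))
    (sq_nonneg (C.at' (C.mon 0 0 (-6 / 5)) x))
  rw [mul_right_comm, m] at this
  linarith
where
  le_of_sq_le_sq₀ {a b : ℝ} (_ : 0 ≤ a) (hb : 0 ≤ b) (k : a ^ 2 ≤ b ^ 2) : a ≤ b :=
    (abs_le_of_sq_le_sq' k hb).2

/-- Functions which are constant along the lines of R. -/
theorem R_X (e : C.R f = 0) (a : Fin 5) : C.R (C.X a f) = 0 := by
  have o : ∀ i, C.R (C.Om i f) = 0 := fun i =>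
    (h.O_D i 1 f).symm.trans (by rw [show C.D 1 f = 0 from e, D_zero])
  fin_cases a
  · exact (h.R_D 0 f).trans (by rw [e, D_zero])
  · show C.R (C.r * C.R f) = 0
    rw [e, mul_zero, D_zero]
  exacts [o 0, o 1, o 2]

theorem jet_ray {x y : C.Pt} (k : ∀ f, C.R f = 0 → C.md x f = C.md y f) (n : ℕ) :
    ∀ f, C.R f = 0 → C.jet n f x = C.jet n f y := by
  induction n with
  | zero => exact fun f e => by rw [jet_zero, jet_zero, k f e]
  | succ n ih => exact fun f e => by simp only [jet_succ, k f e, ih _ (R_X h e _)]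

end ch

variable {Φ : Fm} (h : Φ.Ok)

theorem q2_jet (n : ℕ) (x : h.ch.Pt) : ∀ f : Φ.A,
    q2 ((fz (Φ.E x.1)).lr (Φ.c x.1).M) (h.pt x) n (f x.1) ≤ 2 ^ n * h.ch.jet n f x ^ 2 := by
  induction n with
  | zero => exact fun f => by rw [jet_zero, pow_zero, one_mul]; exact le_rfl
  | succ n ih =>
    intro f
    have a := pow_le_pow_left₀ (jet0 ..) (jet_mono (x := x) n.le_succ f) 2
    have b := (Finset.sum_sq_le_sq_sum_of_nonneg (s := Finset.univ)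
      fun a _ => jet0 (x := x) n (h.ch.X a f)).trans (pow_le_pow_left₀
        (Finset.sum_nonneg fun _ _ => jet0 ..) (sum_jet_le (x := x) n f) 2)
    refine (add_le_add (ih f) (Finset.sum_le_sum fun a _ =>
      (congrArg _ (h.X_ap a f x.1)).ge.trans (ih _))).trans ?_
    rw [← Finset.mul_sum, pow_succ (2 : ℝ)]
    have p : (0 : ℝ) ≤ 2 ^ n := by positivity
    linarith [mul_le_mul_of_nonneg_left a p, mul_le_mul_of_nonneg_left b p]

theorem cq {S : Type} {p : S → h.ch.Pt} {τ : S → ℝ} (τ0 : ∀ σ, 0 ≤ τ σ) {n : ℕ} {f : Φ.A}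
    (k : Cj p τ n f) : ∀ᶠ B in atTop, ∀ σ, q2 ((fz (Φ.E (p σ).1)).lr (Φ.c (p σ).1).M) (h.pt (p σ)) n
      (f (p σ).1) ≤ (B * τ σ) ^ 2 := by
  obtain ⟨B, B0, hB⟩ := k
  refine (eventually_ge_atTop (2 ^ n * B)).mono fun D hD σ => (q2_jet h n _ f).trans
    (le_trans ?_ (pow_le_pow_left₀ (by have := τ0 σ; positivity)
      (mul_le_mul_of_nonneg_right hD (τ0 σ)) 2))
  rw [mul_assoc, mul_pow]
  exact mul_le_mul (le_self_pow₀ (one_le_pow₀ one_le_two) two_ne_zero)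
    (pow_le_pow_left₀ (jet0 ..) (hB σ) 2) (sq_nonneg _) (sq_nonneg _)

/-- The covector of R. -/
def La (Φ : Fm) (i : Fin 3) : Φ.A := fun j => laD (fz (Φ.E j)) (Φ.c j).M i

theorem La_eq (i : Fin 3) : La Φ i =
    hf _ * (h.ch.mu 0 i * (h.ch.r * Φ.al) + h.ch.mu 1 i * h.ch.c (h.ch.r * Φ.al)) :=
  funext fun j => (laD_eq (h.og j) i).trans (by fin_cases i <;> rfl)

theorem cj_La {S : Type} {p : S → h.ch.Pt} {τ : S → ℝ} {n : ℕ} (i : Fin 3) :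
    (Cj p τ n (h.ch.r * Φ.al) → Cj p τ n (La Φ i)) ∧
      (Cj p τ n (h.ch.T (h.ch.r * Φ.al)) → Cj p τ n (h.ch.T (La Φ i))) := by
  have q : ∀ {f}, Cj p τ n f → Cj p τ n (hf _ * (h.ch.mu 0 i * f + h.ch.mu 1 i * h.ch.c f)) :=
    fun k => (cj_sy h.is h.cmp.z_hf.sy le_rfl).mul (((cj_sy h.is (sy_mu h.is 0 i) le_rfl).mul k).add
      ((cj_sy h.is (sy_mu h.is 1 i) le_rfl).mul (k.c h.is)))
  refine ⟨fun k => (q k).of (La_eq h i), fun k => (q k).of ?_⟩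
  have c : ∀ f, h.ch.T (h.ch.c f) = h.ch.c (h.ch.T f) := fun f => (h.hK_is.c0 f).symm
  rw [La_eq h, D_mul, h.cmp.z_hf.1, D_add, D_mul _ (h.ch.mu 0 i), D_mul _ (h.ch.mu 1 i),
    h.is.T_mu, h.is.T_mu, c]
  ring

/-- The dictionary. -/
theorem tf_of (n : ℕ) : ∀ᶠ B in atTop, ∀ (x : h.ch.Pt) (e : ℝ) (o : Od), 0 ≤ e → n ≤ o.m →
    n ≤ o.ia → n ≤ o.m' → n ≤ o.N → Tb h.ch Φ.nf Φ.nf0 (Vw Φ.nf Φ.nf0 h.ch) o e x →
    Tf (fz (Φ.E x.1)) (Φ.c x.1).M n (h.pt x) (B * e) (wu Φ.M0 (6 / 5) (h.pt x))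
      (wu Φ.M0 (1 / 4) (h.pt x)) := by
  let S := {σ : h.ch.Pt × ℝ × Od // 0 ≤ σ.2.1 ∧ n ≤ σ.2.2.m ∧ n ≤ σ.2.2.ia ∧ n ≤ σ.2.2.m' ∧
    n ≤ σ.2.2.N ∧ Tb h.ch Φ.nf Φ.nf0 (Vw Φ.nf Φ.nf0 h.ch) σ.2.2 σ.2.1 σ.1}
  let p : S → h.ch.Pt := fun σ => σ.1.1
  let e : S → ℝ := fun σ => σ.1.2.1
  have e0 : ∀ σ, 0 ≤ e σ := fun σ => σ.2.1
  have c := h.is
  let τ : ℝ → S → ℝ := fun s σ => e σ * (1 + |h.ch.uu (p σ)|) ^ (-s)
  have τ0 : ∀ s σ, 0 ≤ τ s σ := fun s σ => mul_nonneg (e0 σ) (by positivity)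
  have mk : ∀ {f φ}, (∀ σ : S, h.ch.jet σ.1.2.2.m f (p σ) ≤ e σ * h.ch.at' φ (p σ)) →
      Cj p (fun σ => e σ * h.ch.at' φ (p σ)) n f := fun k =>
    ⟨1, zero_le_one, fun σ => ((jet_mono σ.2.2.1 _).trans (k σ)).trans_eq (one_mul _).symm⟩
  have G := at_gf h.cmp (al := Φ.al) (dd_n h) (dd_m h) dd_s
  have sI := fun {τ f} => Cj.mul (p := p) (τ := τ) (m := n) (g := f)
    (cj_sy c (h.cmp.nz_one ▸ sy_nz c 1) le_rfl)
  have sN := fun {τ f} => Cj.mul (p := p) (τ := τ) (m := n) (g := f)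
    (cj_sy c (h.cmp.nz_neg ▸ sy_nz c (-1)) le_rfl)
  have sH := fun {τ f} => Cj.mul (p := p) (τ := τ) (m := n) (g := f)
    (cj_sy c h.cmp.z_hf.sy le_rfl)
  obtain ⟨b1, b2, b3⟩ := inv_b (Cj p (τ (6 / 5)) n) Cj.add Cj.sub sI sH h.cmp.kc.hN fun i =>
    (cm_wu c e0 (6 / 5) (by norm_num) (mk fun σ => σ.2.2.2.2.2.2.b i)).of (G (.inl i)).symm
  have gg : ∀ i, Cj p (τ (6 / 5)) n (gf Φ.kc.N Φ.kc.Ni h.ch.ri (dd Φ) Φ.al (.inr i)) ∧
      Cj p (τ (1 / 4)) n (h.ch.r * gf Φ.kc.N Φ.kc.Ni h.ch.ri (dd Φ) Φ.al (.inr i)) := fun i => by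
    rw [← G]
    rcases i with i | i
    · have k := mk fun σ => σ.2.2.2.2.2.2.g i
      exact ⟨cm_wu c e0 _ (by norm_num) k, cm_wu c e0 _ (by norm_num) (cm_r c k)⟩
    · have k := mk fun σ => σ.2.2.2.2.2.2.h i
      exact ⟨cm_wu c e0 _ (by norm_num) k, cm_wu c e0 _ (by norm_num) (cm_r c k)⟩
  obtain ⟨g1, g2, g3⟩ := inv_g (fun f => Cj p (τ (6 / 5)) n f ∧ Cj p (τ (1 / 4)) n (h.ch.r * f))
    (fun a b => ⟨a.1.add b.1, (a.2.add b.2).of (mul_add ..)⟩)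
    (fun a b => ⟨a.1.sub b.1, (a.2.sub b.2).of (mul_sub ..)⟩)
    (fun a => ⟨sI a.1, (sI a.2).of (mul_left_comm ..)⟩)
    (fun a => ⟨sN a.1, (sN a.2).of (mul_left_comm ..)⟩)
    (fun a => ⟨sH a.1, (sH a.2).of (mul_left_comm ..)⟩) h.cmp.kc.hN gg
  have al : Cj p e n (h.ch.r * Φ.al) := (cm_r c (a := -1) (b := 0) (c := 0) ⟨1, zero_le_one,
    fun σ => ((jet_mono σ.2.2.2.1 _).trans σ.2.2.2.2.2.2.a).trans_eq (one_mul _).symm⟩).mono
    fun σ => by simp [at_r0, e]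
  have m0 : Cj p e n (h.ch.r * dd Φ (.inl (2, 0))) := (((gg (.inl 4)).2.mono fun σ =>
    mul_le_of_le_one_right (e0 σ) (Real.rpow_le_one_of_one_le_of_nonpos
      (le_add_of_nonneg_right (abs_nonneg _)) (by norm_num))).add al).of (by
    change _ = _ * (dd Φ (.inl (2, 0)) - Φ.al) + _; ring)
  have W : ∀ k : Fin 5, Cj p (τ (6 / 5)) n (dd Φ (.inr (k.natAdd 8))) := fun k =>
    ((cj_sy c (sy_nz c (-(2 - (k : ℕ)))) le_rfl).mul (cm_wu c e0 (6 / 5) (by norm_num)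
      ⟨8, by norm_num, fun σ => jet_dt c (jet0 ..) (e0 σ) (σ.2.2.2.2.2.2.V n [] k σ.2.2.2.2.1
        σ.2.2.2.2.2.1)⟩)).of (by
      rw [P354FA.Vw_nil, show (Φ.nf.df Φ.nf0 h.ch).V k = _ from V_eq dd_s k, ← mul_assoc,
        ← P354FA.nz_add, neg_add_cancel, P354FA.nz_zero, one_mul])
  filter_upwards [eventually_all.2 fun k => eventually_all.2 fun hk => cq h (τ0 _) (b1 k hk),
    cq h (τ0 _) b2, cq h (τ0 _) b3,
    eventually_all.2 fun k => eventually_all.2 fun hk =>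
      (cq h (τ0 _) (g1 k hk).1).and (cq h (τ0 _) (g1 k hk).2),
    cq h (τ0 _) g2.1, cq h (τ0 _) g2.2,
    eventually_all.2 fun k => eventually_all.2 fun hk =>
      (cq h (τ0 _) (g3 k hk).1).and (cq h (τ0 _) (g3 k hk).2),
    cq h e0 m0, eventually_all.2 fun i => cq h e0 ((cj_La h i).1 al),
    eventually_all.2 fun k => cq h (τ0 _) (W k)]
    with B a1 a2 a3 a4 a5 a6 a7 a8 a9 a10 x ε o q1 q2 q3 q4 q5 q6
  let σ : S := ⟨(x, ε, o), q1, q2, q3, q4, q5, q6⟩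
  have t : ∀ s, (B * τ s σ) ^ 2 = (B * ε * wu Φ.M0 s (h.pt x)) ^ 2 := fun s => by
    rw [wu, ← h.uu_eq, mul_assoc]
  refine ⟨fun k hk => (a1 k hk σ).trans_eq (t _), (a2 σ).trans_eq (t _), (a3 σ).trans_eq (t _),
    fun k hk => ⟨((a4 k hk).1 σ).trans_eq (t _), ((a4 k hk).2 σ).trans_eq (t _)⟩,
    ⟨(a5 σ).trans_eq (t _), (a6 σ).trans_eq (t _)⟩,
    fun k hk => ⟨((a7 k hk).1 σ).trans_eq (t _), ((a7 k hk).2 σ).trans_eq (t _)⟩, a8 σ,
    fun i => a9 i σ, fun k hk => ?_⟩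
  have := (a10 ⟨k - 8, by omega⟩ σ).trans_eq (t _)
  rwa [show Fin.natAdd 8 (⟨k - 8, by omega⟩ : Fin 5) = k from Fin.ext (by
    have : 8 ≤ (k : ℕ) := hk
    simp only [Fin.natAdd_mk]; omega)] at this

/-- The time derivative of the covector of R, from a point of bounded radius. -/
theorem tl_of (n : ℕ) (ρ : ℝ) : ∀ᶠ B in atTop, ∀ (x y : h.ch.Pt) (e : ℝ) (o : Od), 0 ≤ e →
    n + 1 ≤ o.ia → h.ch.rr y ≤ ρ → h.ch.uu y = h.ch.uu x →
    (∀ f, h.ch.R f = 0 → h.ch.md x f = h.ch.md y f) →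
    Tb h.ch Φ.nf Φ.nf0 (Vw Φ.nf Φ.nf0 h.ch) o e y → ∀ i,
    q2 ((fz (Φ.E x.1)).lr (Φ.c x.1).M) (h.pt x) n ((fz (Φ.E x.1)).T
      (laD (fz (Φ.E x.1)) (Φ.c x.1).M i)) ≤ (B * e * wu Φ.M0 (6 / 5) (h.pt x)) ^ 2 := by
  let S := {σ : h.ch.Pt × h.ch.Pt × ℝ × Od // 0 ≤ σ.2.2.1 ∧ n + 1 ≤ σ.2.2.2.ia ∧
    h.ch.rr σ.2.1 ≤ ρ ∧ h.ch.uu σ.2.1 = h.ch.uu σ.1 ∧
    (∀ f, h.ch.R f = 0 → h.ch.md σ.1 f = h.ch.md σ.2.1 f) ∧
    Tb h.ch Φ.nf Φ.nf0 (Vw Φ.nf Φ.nf0 h.ch) σ.2.2.2 σ.2.2.1 σ.2.1}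
  have c := h.is
  have k : Cj (fun σ : S => σ.1.2.1) (fun σ => σ.1.2.2.1 * h.ch.at' (h.ch.mon _ _ _) σ.1.2.1)
      (n + 1) (h.ch.r * Φ.al) := cm_r c ⟨1, zero_le_one, fun σ =>
    ((jet_mono σ.2.2.1 _).trans σ.2.2.2.2.2.2.a').trans_eq (one_mul _).symm⟩
  obtain ⟨B, B0, hB⟩ := cm_wu c (p := fun σ : S => σ.1.2.1) (fun σ => σ.2.1) (6 / 5) (a := 0)
    (b := -11 / 8) (c := 3 / 20) (by norm_num) (n := n) (f := h.ch.T (h.ch.r * Φ.al)) (by
    obtain ⟨B, B0, hB⟩ := k.der 0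
    refine ⟨B * |ρ| ^ 2, by positivity, fun σ => (hB σ).trans ?_⟩
    have r := one_le_rr c σ.1.2.1
    have q : h.ch.at' (h.ch.mon (77 / 40) 0 0) σ.1.2.1 ≤ |ρ| ^ 2 := by
      rw [at_r, ← Real.rpow_two]
      exact (Real.rpow_le_rpow_of_exponent_le r (by norm_num)).trans
        (Real.rpow_le_rpow (by linarith) (σ.2.2.2.1.trans (le_abs_self _)) zero_le_two)
    have := mul_le_mul_of_nonneg_right q (at_pos c 0 (-11 / 8) (3 / 20) σ.1.2.1).le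
    rw [at_mon_mul c] at this
    norm_num at this ⊢
    nlinarith [mul_le_mul_of_nonneg_left this (mul_nonneg B0 σ.2.1)])
  have z : h.ch.R (h.ch.T (h.ch.r * Φ.al)) = 0 := R_X c h.nf_is.al.1 0
  filter_upwards [eventually_all.2 fun i => cq h (p := fun σ : S => σ.1.1)
    (fun σ => mul_nonneg σ.2.1 (wu_pos Φ.M0 (6 / 5) (h.pt σ.1.1)).le) ((cj_La h i).2 ⟨B, B0,
      fun σ => (jet_ray c σ.2.2.2.2.2.1 n _ z).trans_le ((hB σ).trans_eq (by
        simp only [wu, ← h.uu_eq, σ.2.2.2.2.1]))⟩)] with D a x y e o q1 q2 q3 q4 q5 q6 i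
  exact (a i ⟨(x, y, e, o), q1, q2, q3, q4, q5, q6⟩).trans_eq (by rw [mul_assoc])

/-- All states with the constants c. -/
def fm (c : Cs) : Fm := ⟨{E : Est // E.Is c}, c.M, fun _ => c, Subtype.val, fun _ => c.R1 + 3,
  fun _ => c.R1 + 3⟩

theorem ft_of {c : Cs} (ok : c.Ok) (n : ℕ) : ∃ C, 1 ≤ C ∧ ∀ E η, E.Is c → 0 ≤ η →
    P354CO.FTof P354CO.TabE c E n η → P354YK.FT c E n (C * η) := by
  have m0 : 0 < c.M := (abs_nonneg _).trans_lt ok.aM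
  have r1 := ok.R1
  have h : (fm c).Ok := ⟨fun _ => rfl, fun j => j.2.shape.co2, fun j => j.2.eqs,
    fun _ => ⟨show 1 ≤ c.R1 + 3 by linarith, le_rfl⟩⟩
  obtain ⟨B, ⟨h1, h2⟩, B1⟩ := (((tf_of h n).and (tl_of h n c.R2)).and (eventually_ge_atTop 1)).exists
  have u : 1 ≤ (c.R1 + 3) ^ 3 := one_le_pow₀ (by linarith)
  refine ⟨B * (c.R1 + 3) ^ 3, one_le_mul_of_one_le_of_one_le B1 u,
    fun E η is e0 ⟨m, L, a1, _, a3, _, a5, a6⟩ => ⟨a1.trans a5, by positivity, fun x hx an fa => ?_⟩⟩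
  have tb : ∀ y (hy : y ∈ E.O2 ∧ An y ∧ y ∈ (fm c).W ⟨E, is⟩), Tb h.ch (fm c).nf (fm c).nf0
      (Vw (fm c).nf (fm c).nf0 h.ch) (P354CO.od m L) (η * (c.R1 + 3) ^ 3) (h.pk ⟨E, is⟩ y hy) :=
    fun y hy => by
      obtain ⟨s, k1, k2⟩ := ((is.shape.lvO.eventually_mem (is.shape.lv2 y hy.1)).filter_mono
        (nhdsWithin_le_nhds (s := Ioi (rv E.tau y)))).and self_mem_nhdsWithin |>.exists
      exact a6 s k1 (fm c) h _ rfl rfl le_rfl k2
  have e1 : 0 ≤ η * (c.R1 + 3) ^ 3 := by positivity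
  rw [mul_assoc, mul_comm _ η]
  refine ⟨h1 _ _ _ e1 (a1.trans (Nat.le_add_right _ 6)) (a1.trans (Nat.le_add_right _ 12)) a1
    (show n ≤ L by omega) (tb x ⟨hx, an, fa⟩), fun hu => ?_⟩
  have l1 := le_max_left (c.R1 + 3) (-uu c.M x)
  have l2 := le_max_right (c.R1 + 3) (-uu c.M x)
  have l3 : max (c.R1 + 3) (-uu c.M x) ≤ x.2.1 := max_le fa.1 (by linarith [fa.2])
  have l4 : max (c.R1 + 3) (-uu c.M x) ≤ c.R2 := max_le (by linarith [ok.R2]) (by linarith)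
  generalize max (c.R1 + 3) (-uu c.M x) = ρ at *
  have ry := fun s k => (P354YK.ray_in is.shape hx an l1 (by linarith) (by linarith) l3 s k).1
  refine h2 (h.pk ⟨E, is⟩ x ⟨hx, an, fa⟩) (h.pk ⟨E, is⟩ (ray c.M x ρ) ⟨ry ρ ⟨le_rfl, l3⟩, an, l1, by
    show 0 ≤ uu c.M (ray c.M x ρ) + ρ
    rw [P354YK.uu_ray]; linarith⟩) _ _ e1 (show n + 1 ≤ m + 12 by omega)
    ((h.rr_eq _).trans_le l4) ((h.uu_eq _).trans ((P354YK.uu_ray _ _ _).trans
      (h.uu_eq (h.pk ⟨E, is⟩ x ⟨hx, an, fa⟩)).symm))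
    (fun f z => ?_) (tb _ _)
  have d := fun s k => P354YK.fv_ray is.shape.co2 E.M E.a (f ⟨E, is⟩) (ry s k)
  rw [show (kO E.O2 c.M E.M E.a).R (f ⟨E, is⟩) = 0 from
    (Fm.Ok.R_ap f ⟨E, is⟩).symm.trans (congrFun z _)] at d
  simp only [fv_zero] at d
  have := constant_of_has_deriv_right_zero (fun s k => (d s k).continuousAt.continuousWithinAt)
    (fun s k => (d s (Ico_subset_Icc_self k)).hasDerivWithinAt) _ (right_mem_Icc.2 l3)
  rw [P354YK.ray_self] at this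
  exact congrArg norm this

theorem tof (h : CORE (P354CO.FTof P354CO.TabE)) : CORE P354YK.FT := fun z a n => by
  obtain ⟨N1, h⟩ := h z a n
  refine ⟨N1, fun b hb => ?_⟩
  obtain ⟨Lm, h⟩ := h b hb
  refine ⟨Lm, fun L hL => ?_⟩
  obtain ⟨K, Rm, h⟩ := h L hL
  refine ⟨K, Rm, fun R2 h2 Rs d ok => ?_⟩
  obtain ⟨ε0, p, Cc, c0, h⟩ := h R2 h2 Rs d ok
  obtain ⟨C, C1, hC⟩ := ft_of ok n
  refine ⟨ε0, p, C * Cc, by positivity, fun E ε is he e0 de => ?_⟩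
  obtain ⟨k1, k2⟩ := h E ε is he e0 de
  have q : 0 ≤ Cc * (E.e0 + ε ^ 2) := by have := is.near.e0; positivity
  rw [mul_assoc]
  exact ⟨fun x hx n1 => (k1 x hx n1).trans (pow_le_pow_left₀ (by positivity)
    (mul_le_mul_of_nonneg_right (le_mul_of_one_le_left q C1) (by positivity)) 2), hC E _ is q k2⟩

end Vale.Agent.P354CP
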