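import Vale.Agent.P354CP.Row
import Vale.Agent.P354CP.Defs
import Vale.Agent.P354EF.Hom
import Vale.Agent.P354SI.Sl
import Vale.Agent.P354PT.Wt

/-!
The context, the volume of the initial part, and the two kinds of integrals.
-/

open scoped ContDiff ENNReal
open Set MeasureTheory Filter

noncomputable section

namespace Vale.Agent.P354CP

open Vale.Agent.P354XG Vale.Agent.P354XD Vale.Agent.P354XI Vale.Agent.P354Z Vale.Agent.P354CV
open Vale.Agent.P354EF Vale.Agent.P354SI Vale.Agent.P354CO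
open Vale.Agent.P354BF (De rp)
open Vale.Agent.P354BO (tr χ q2_mono)
open Vale.Agent.P354XT (up dn bp up_nonneg up_le dn_le bp_nonneg bp_le)
open Vale.Agent.P354XR (eta_nn eta_mono par_le r1_pos)
open Vale.Agent.P354YH (wt wt_pos wt_le_wt wt_q0)

theorem sml_of {c : Cs} (h : c.Ok) (ρ : ℝ) {δ : ℝ} (hδ : 0 < δ) : ∃ ε0 > 0, ∀ (E : Est) (L n : ℕ)
    (ε : ℝ), Bo c E L ε → ε ≤ ε0 → n / 2 + c.L0 + 1 ≤ L → 4 ≤ c.N0 →
    |E.M - c.M| + |E.a - c.a| ≤ δ ∧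
      ∀ x ∈ E.O1, An x → x.2.1 ≤ ρ → c.t1 - 2 ≤ x.1 → Sml c E n δ x := by
  obtain ⟨Cp, p0, kp⟩ := par_le (s := 7 / 5) (by norm_num) ⌈|c.bt c.R1 - c.t1| + c.c0⌉₊
  obtain ⟨Cb, b0, kb⟩ := bootp (s := 7 / 5) (by norm_num) (by norm_num) (2 + ⌈c.c0⌉₊)
  have a1 := h.C c.R1
  have a2 := h.C (max ρ (c.R1 + 3))
  refine ⟨min (min (1 / 2) δ) (δ / (c.C c.R1 * Cp + c.C (max ρ (c.R1 + 3)) * Cb * 2 + 1)),
    by positivity, fun E L n ε b he hL hN => ?_⟩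
  obtain ⟨⟨e1, e2⟩, e3⟩ : (_ ∧ _) ∧ _ := by simpa only [le_min_iff] using he
  rw [le_div_iff₀ (by positivity)] at e3
  have e0 := b.pos
  have n0 := b.is.near.e0
  have t1 : 0 ≤ c.t1 := zero_le_two.trans h.t1
  have D0 : E.Dec c.L0 (7 / 5) ε := fun x hx n1 => (eta_mono _ (by omega) x).trans (b.dec x hx n1)
  have u1 : 0 ≤ c.C c.R1 * Cp * ε := by positivity
  have u2 : 0 ≤ c.C (max ρ (c.R1 + 3)) * Cb * 2 * ε := by positivity
  refine ⟨(kp t1 b.is.near D0 (by linarith) b.e0 (by linarith) (Nat.le_ceil _)).trans (by linarith),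
    fun x hx an hr ht => ⟨fun i => ?_, fun n1 => ?_⟩⟩
  · refine (q2_mono _ _ hN _).trans ((kb t1 (zero_le_one.trans h.c0) b.is.near D0 e0.le
      (by linarith [b.e0]) (le_max_right ρ _) ⌊x.1 - c.t1⌋₊ x hx an (hr.trans (le_max_left _ _))
      ?_ i).1.trans (pow_le_pow_left₀ (by have := wt_pos (-(7 / 5)) ⌊x.1 - c.t1⌋₊; positivity) ?_ 2))
    · have := Nat.lt_floor_add_one (x.1 - c.t1)
      have k : |x.1 - c.t1 - ⌊x.1 - c.t1⌋₊| ≤ 2 := by
        rcases le_total 0 (x.1 - c.t1) with q | q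
        · exact abs_le.2 ⟨by linarith [Nat.floor_le q], by linarith⟩
        · rw [Nat.floor_of_nonpos q]; exact abs_le.2 ⟨by simp; linarith, by simp; linarith⟩
      push_cast; linarith [Nat.le_ceil c.c0]
    · have w1 : wt (-(7 / 5)) ⌊x.1 - c.t1⌋₊ ≤ 1 := (wt_le_wt (by norm_num) _).trans_eq (wt_q0 _)
      refine (mul_le_of_le_one_right (by positivity) w1).trans ?_
      nlinarith [mul_le_mul_of_nonneg_left b.e0 (show 0 ≤ c.C (max ρ (c.R1 + 3)) * Cb by positivity)]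
  · refine (eta_mono _ (show _ ≤ L by omega) x).trans ((b.dec x hx n1).trans
      (pow_le_pow_left₀ (by positivity) ((mul_le_of_le_one_right e0.le ?_).trans e2) 2))
    exact Real.rpow_le_one_of_one_le_of_nonpos (by linarith [abs_nonneg x.1]) (by norm_num)

/-- The context from EFIN; the margin is at most c1 and the parameters are δ1-close. -/
theorem ex_cx (hE : EFIN) {M0 r1 c1 : ℝ} (h0 : 0 < M0) (h1 : 0 < r1) (hc : 0 < c1) :
    ∃ cm, 0 < cm ∧ cm ≤ 1 / 2 ∧ cm ≤ c1 ∧ ∀ (ρ : ℝ) (n : ℕ), 1 ≤ n → ∃ κ C, 0 ≤ κ ∧ 0 ≤ C ∧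
      ∀ c : Cs, c.Ok → c.M = M0 → c.r1 = r1 → ∀ δ1 > 0, ∃ ε0 > 0, ∀ (E : Est) (L : ℕ) (ε : ℝ),
        Bo c E L ε → ε ≤ ε0 → n / 2 + c.L0 + 1 ≤ L → 4 ≤ c.N0 → ρ + 1 ≤ c.Rs →
        Cx c E n ρ cm κ C ∧ |E.M - c.M| + |E.a - c.a| ≤ δ1 := by
  obtain ⟨cm, c0, c2, kc⟩ := ex_kc M0 h1
  have m0 : 0 < min cm c1 := lt_min c0 hc
  have m1 := min_le_left cm c1
  refine ⟨min cm c1, m0, by linarith, min_le_right _ _, fun ρ n hn => ?_⟩
  obtain ⟨κ, C, δ, k0, C0, d0, hF⟩ := hE M0 r1 ρ (min cm c1) n h0 h1 m0 (by linarith) hn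
  refine ⟨κ, C, k0.le, C0.le, fun c ok eM er δ1 d1 => ?_⟩
  obtain ⟨ε1, p1, s1⟩ := sml_of ok ρ d0
  obtain ⟨ε2, p2, s2⟩ := sml_of ok ρ (lt_min d1 (half_pos h0))
  refine ⟨min ε1 ε2, lt_min p1 p2, fun E L ε b he hL hN hρ => ?_⟩
  have q := (s2 E L n ε b (he.trans (min_le_right _ _)) hL hN).1
  subst eM er
  refine ⟨⟨m0.le, by linarith, C0.le, fun x hx => (b.is.shape.rad1 x hx).1, fun r hr => ?_,
    fun x hx ht => ?_, δ, hF c E rfl rfl (by
      linarith [min_le_right δ1 (c.M / 2), neg_abs_le (E.M - c.M), abs_nonneg (E.a - c.a)])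
      b.is.shape b.is.eqs hρ, (s1 E L n ε b (he.trans (min_le_left _ _)) hL hN).2⟩,
    q.trans (min_le_left _ _)⟩
  · have k := kc E.M E.a r b.is.eqs.par.1 b.is.eqs.par.2 hr
    exact ⟨k.1, k.2.1, fun m a e => c2_mono (k.2.2 m a e) m0.le m1⟩
  · have r0 := (b.is.shape.rad1 x hx).1
    have := mul_nonneg ok.del.1.le (h1.le.trans r0)
    exact le_trans (by linarith [ok.btt _ r0]) ht

/-- The function De is negative between the horizons. -/
theorem de_neg {M0 a0 r1 rb : ℝ} (ha : |a0| < M0) (h1 : M0 - √(M0 ^ 2 - a0 ^ 2) < r1)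
    (h2 : rb < rp M0 a0) (h3 : r1 ≤ rb) : ∃ cD > 0, ∃ δ > 0, ∀ M a r : ℝ,
    |M - M0| + |a - a0| ≤ δ → r1 ≤ r → r ≤ rb → De M a r ≤ -cD ∧ r ^ 2 + a ^ 2 ≤ 8 * M0 ^ 2 := by
  have m0 : 0 < M0 := (abs_nonneg _).trans_lt ha
  have a2 := sq_lt_sq' (abs_lt.1 ha).1 (abs_lt.1 ha).2
  have q := Real.sq_sqrt (show 0 ≤ M0 ^ 2 - a0 ^ 2 by linarith)
  have q1 : √(M0 ^ 2 - a0 ^ 2) ≤ M0 := Real.sqrt_le_iff.2 ⟨m0.le, by nlinarith [sq_nonneg a0]⟩
  rw [rp] at h2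
  generalize √(M0 ^ 2 - a0 ^ 2) = s at *
  have p : 0 < (r1 - (M0 - s)) * (M0 + s - rb) := mul_pos (by linarith) (by linarith)
  refine ⟨_, half_pos p, min M0 ((r1 - (M0 - s)) * (M0 + s - rb) / 2 / (7 * M0)), by positivity,
    fun M a r h k1 k2 => ?_⟩
  have d1 := h.trans (min_le_left _ _)
  have d2 := (le_div_iff₀ (by positivity)).1 (h.trans (min_le_right _ _))
  have e1 : (r1 - (M0 - s)) * (M0 + s - rb) ≤ (r - (M0 - s)) * (M0 + s - r) :=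
    mul_le_mul (by linarith) (by linarith) (by linarith) (by linarith)
  have x0 := abs_nonneg (M - M0)
  have y0 := abs_nonneg (a - a0)
  have r0 : 0 ≤ r := by linarith
  have e2 : -(M - M0) * r ≤ |M - M0| * (2 * M0) :=
    mul_le_mul (neg_le_abs _) (by linarith) r0 x0
  have a3 : |a| ≤ 2 * M0 := by linarith [abs_sub_abs_le_abs_sub a a0]
  have e3 : (a - a0) * (a + a0) ≤ |a - a0| * (3 * M0) := by
    refine (le_abs_self _).trans ?_
    rw [abs_mul]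
    exact mul_le_mul_of_nonneg_left ((abs_add_le _ _).trans (by linarith)) y0
  refine ⟨?_, by nlinarith [sq_le_sq' (abs_le.1 a3).1 (abs_le.1 a3).2]⟩
  rw [De]
  nlinarith [mul_nonneg x0 m0.le, mul_nonneg y0 m0.le]

theorem vol : ∃ V, 0 ≤ V ∧ ∀ (c : Cs) (E : Est) (f : E6 → ℝ) (Z : Set E6) (ρ a b e : ℝ),
    E.Shape c → 0 ≤ c.r1 → 0 ≤ e → 0 ≤ ρ → -c.B ≤ b →
    (∀ x ∈ E.O1, An x → x.1 ≤ b → f x ≤ e) →
    Yz E f (Z ∩ Bx ρ a b) ≤ ENNReal.ofReal (V * ((b + c.B) * ρ * e)) := by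
  refine ⟨(volume P354BO.K).toReal, ENNReal.toReal_nonneg,
    fun c E f Z ρ a b e h h1 he hρ hb hf => ?_⟩
  have m : MeasurableSet (E.O1 ∩ {x | An x} ∩ Bx ρ a b) :=
    (h.co1.op.measurableSet.inter an_ms).inter (bx_ms _ _ _)
  refine (lintegral_mono_set (t := E.O1 ∩ {x | An x} ∩ Bx ρ a b)
    fun x k => ⟨⟨k.1, k.2.1⟩, k.2.2.2⟩).trans ((setLIntegral_mono' m
    (g := fun _ => ENNReal.ofReal e) fun x k => ENNReal.ofReal_le_ofReal
      (hf x k.1.1 k.1.2 k.2.2.2)).trans ?_)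
  rw [setLIntegral_const]
  refine (mul_le_mul_right (measure_mono (t := Icc (-c.B) b ×ˢ Icc 0 ρ ×ˢ P354BO.K) fun x k =>
    ⟨⟨(h.rad1 x k.1.1).2.2, k.2.2.2⟩, ⟨h1.trans (h.rad1 x k.1.1).1, k.2.1⟩,
      (nq_N x).symm ▸ k.1.2.1, (nq_N x).symm ▸ k.1.2.2⟩) _).trans_eq ?_
  rw [Measure.volume_eq_prod, Measure.prod_prod, Measure.volume_eq_prod, Measure.prod_prod,
    Real.volume_Icc, Real.volume_Icc, ENNReal.ofReal_mul ENNReal.toReal_nonneg,
    ENNReal.ofReal_toReal P354BO.K_cpt.measure_lt_top.ne, ENNReal.ofReal_mul (by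
      exact mul_nonneg (by linarith) hρ), ENNReal.ofReal_mul (by linarith), sub_zero, sub_neg_eq_add]
  ring

theorem shellQ : ∃ C : ℝ, 0 ≤ C ∧ ∀ (F : E6 → ℝ) (A : ℝ), 1 ≤ A →
    (∀ s, |s| ≤ 1 → ∀ x, F (sr (Real.exp s) x) ≤ A * F x) →
    ∫⁻ x in {x | An x}, ENNReal.ofReal (F x) ≤
      ENNReal.ofReal (C * A) * ∫⁻ x, ENNReal.ofReal (χ x.2.2 ^ 2 * F x) := by
  obtain ⟨C1, c1, h1⟩ := int_sr (t := 5 / 4) (by norm_num)
  obtain ⟨C2, c2, h2⟩ := int_sr (t := 4 / 5) (by norm_num)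
  refine ⟨1 + C1 + C2, by positivity, fun F A hA hF => ?_⟩
  have s : {x | An x} ⊆ {x | nq x ∈ Icc (3 / 4 : ℝ) (5 / 4)} ∪
      sr (5 / 4) ⁻¹' {x | nq x ∈ Icc (3 / 4 : ℝ) (5 / 4)} ∪
      sr (4 / 5) ⁻¹' {x | nq x ∈ Icc (3 / 4 : ℝ) (5 / 4)} := fun x hx => by
    simp only [mem_union, mem_preimage, mem_ofPred, nq_sr, mem_Icc]
    rcases le_total (nq x) (3 / 4) with a | a
    · exact .inl (.inr ⟨by linarith [hx.1], by linarith⟩)
    rcases le_total (nq x) (5 / 4) with b | b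
    · exact .inl (.inl ⟨a, b⟩)
    · exact .inr ⟨by linarith, by linarith [hx.2]⟩
  have k : ∀ (t : ℝ) (S : Set E6), 4 / 5 ≤ t → t ≤ 5 / 4 → ∫⁻ x in S, ENNReal.ofReal (F x) ≤
      ENNReal.ofReal A * ∫⁻ x in S, ENNReal.ofReal (F (sr t x)) := fun t S a b => by
    have t0 : 0 < t := by linarith
    rw [← lintegral_const_mul' _ _ ENNReal.ofReal_ne_top]
    refine lintegral_mono fun x => ?_
    have := hF (-Real.log t) (by
      have := Real.log_le_sub_one_of_pos t0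
      have := Real.one_sub_inv_le_log_of_pos t0
      have : t⁻¹ ≤ 5 / 4 := (inv_le_comm₀ t0 (by norm_num)).2 (by linarith)
      exact abs_le.2 ⟨by linarith, by linarith⟩) (sr t x)
    rw [Real.exp_neg, Real.exp_log t0, sr_inv t0.ne'] at this
    rw [← ENNReal.ofReal_mul (by linarith)]
    exact ENNReal.ofReal_le_ofReal this
  have b : ∫⁻ x in {x | nq x ∈ Icc (3 / 4 : ℝ) (5 / 4)}, ENNReal.ofReal (F x) ≤
      ∫⁻ x, ENNReal.ofReal (χ x.2.2 ^ 2 * F x) := by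
    refine (setLIntegral_mono' (isClosed_Icc.preimage nq_ct).measurableSet fun x hx => ?_).trans
      (setLIntegral_le_lintegral _ _)
    rw [χ, P354BO.bu.one_of_mem_closedBall, one_pow, one_mul]
    rw [nq_N, Metric.mem_closedBall, Real.dist_eq, abs_le, show P354BO.bu.rIn = 1 / 4 from rfl]
    constructor <;> linarith [hx.1, hx.2]
  refine ((lintegral_mono_set s).trans ((lintegral_union_le _ _ _).trans
    (add_le_add_left (lintegral_union_le _ _ _) _))).trans ((add_le_add (add_le_add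
      (le_mul_of_one_le_left' (ENNReal.one_le_ofReal.2 hA)) (k (5 / 4) _ (by norm_num) le_rfl))
      (k (4 / 5) _ le_rfl (by norm_num))).trans ?_)
  rw [h1 _ fun x => ENNReal.ofReal (F x), h2 _ fun x => ENNReal.ofReal (F x),
    ENNReal.ofReal_mul (by positivity), ENNReal.ofReal_add (by positivity) c2,
    ENNReal.ofReal_add zero_le_one c1, ENNReal.ofReal_one]
  refine le_trans (le_of_eq ?_) (mul_le_mul_right b _)
  ring

variable {P : Pr}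

theorem St.bo (σ : St P) : Bo σ.c σ.E σ.L σ.eps :=
  ⟨σ.is, (σ.ok.s0 : P.c.s0 = 7 / 5) ▸ σ.dec, σ.e1, σ.e0⟩

theorem fy_le (hP : P.Ok) (σ : St P) (n : ℕ) (R : ℝ) (j : ℕ) : ENNReal.ofReal (fy P n R σ j) ≤
    Yz σ.E (fun x => P.ch x.2.1 * σ.E.eta n x)
      (ZL σ.E univ ∩ Bx (R + 1) (P.c.t1 + j) (P.c.t1 + j + 2)) := by
  by_cases e : j ≤ σ.K
  swap
  · simp [fy, St.sj, e]
  have sa := σ.sa (e.trans (Nat.le_add_right _ 2))
  have wc := St.wc_y hP σ R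
  have nn : ∀ x : E6, 0 ≤ bp (x.1 - (P.c.t1 + j)) * (P.ch x.2.1 * σ.out R x.2.1) * χ x.2.2 ^ 2 :=
    fun x => mul_nonneg (mul_nonneg (bp_nonneg _) (mul_nonneg (up_nonneg _ _ _) (St.out_nn _ _)))
      (sq_nonneg _)
  rw [fy, St.sj_eq e, P354SI.sl, ofReal_integral_eq_lintegral_ofReal (St.sl_int sa wc (σ.cn_eta n))
    (.of_forall fun x => mul_nonneg (nn x) (eta_nn _ n x))]
  refine (lintegral_mono fun x => ?_).trans (lintegral_indicator_le _ _)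
  by_cases k : bp (x.1 - (P.c.t1 + j)) * (P.ch x.2.1 * σ.out R x.2.1) * χ x.2.2 ^ 2 = 0
  · simp [k]
  have p := St.pt_of sa wc k
  rw [indicator_of_mem (show x ∈ {x | x ∈ σ.E.O1 ∧ An x ∧ x ∈ ZL σ.E univ ∩
    Bx (R + 1) (P.c.t1 + j) (P.c.t1 + j + 2)} from ⟨p.1, p.2.1, trivial, by_contra fun q => k (by
      rw [St.out_zero (not_le.1 q).le]; simp), p.2.2⟩)]
  refine ENNReal.ofReal_le_ofReal (mul_le_mul_of_nonneg_right ?_ (eta_nn _ n x))
  have a0 : 0 ≤ P.ch x.2.1 := up_nonneg _ _ _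
  have a1 := mul_nonneg a0 (St.out_nn (σ := σ) R x.2.1)
  exact (mul_le_of_le_one_right (mul_nonneg (bp_nonneg _) a1) (pow_le_one₀ (P354BO.χ_nonneg _)
    (P354BO.χ_le _))).trans ((mul_le_of_le_one_left a1 (bp_le _)).trans
    (mul_le_of_le_one_right a0 (dn_le _ _ _)))

theorem bp_half {x : ℝ} (h1 : 1 / 2 ≤ x) (h2 : x ≤ 3 / 2) : 1 ≤ 2 * bp x := by
  rcases le_total x 1 with k | k
  · have := P354PT.up_half zero_lt_one (x := x) (by linarith)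
    rw [bp, Real.smoothTransition.zero_of_nonpos (x := x - 1) (by linarith)]
    simp only [up, sub_zero, div_one] at this
    linarith
  · have := P354PT.dn_half zero_lt_one (x := x - 1) (by linarith)
    rw [bp, Real.smoothTransition.one_of_one_le k]
    simp only [dn, up, sub_zero, div_one] at this
    linarith

theorem le_fy (n : ℕ) : ∃ C, 0 ≤ C ∧ ∀ {P : Pr}, P.Ok → ∀ (σ : St P) (R : ℝ) (j : ℕ) (Z : Set E6),
    j ≤ σ.K → R ≤ σ.R2 - 2 → Yz σ.E (fun x => P.ch x.2.1 * σ.E.eta n x)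
      (Z ∩ Bx R (P.c.t1 + j + 1 / 2) (P.c.t1 + j + 3 / 2)) ≤ ENNReal.ofReal (C * fy P n R σ j) := by
  obtain ⟨C, C0, hC⟩ := shellQ
  refine ⟨2 * (C * Real.exp (4 + 2 * n) ^ 2), by positivity, fun {P} hP σ R j Z e hR => ?_⟩
  have sa := σ.sa (e.trans (Nat.le_add_right _ 2))
  have nn : ∀ x : E6, 0 ≤ bp (x.1 - (P.c.t1 + j)) * (P.ch x.2.1 * σ.out R x.2.1) :=
    fun x => mul_nonneg (bp_nonneg _) (mul_nonneg (up_nonneg _ _ _) (St.out_nn _ _))
  have k := hC (fun x => bp (x.1 - (P.c.t1 + j)) * (P.ch x.2.1 * σ.out R x.2.1) * σ.E.eta n x)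
    (Real.exp (4 + 2 * n) ^ 2) (one_le_pow₀ (Real.one_le_exp (by positivity))) fun s hs x =>
      (mul_le_mul_of_nonneg_left (eta_hom σ.is.shape σ.is.eqs n hs x) (nn x)).trans_eq (by ring)
  rw [fy, St.sj_eq e, P354SI.sl, mul_assoc, ENNReal.ofReal_mul zero_le_two,
    ENNReal.ofReal_mul (by positivity), ofReal_integral_eq_lintegral_ofReal
    (St.sl_int sa (St.wc_y hP σ R) (σ.cn_eta n))
    (.of_forall fun x => mul_nonneg (mul_nonneg (nn x) (sq_nonneg _)) (eta_nn _ n x))]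
  refine le_trans ?_ (mul_le_mul_right (k.trans_eq (congrArg _ (lintegral_congr fun x =>
    congrArg _ (by ring)))) _)
  rw [← lintegral_const_mul' _ _ ENNReal.ofReal_ne_top]
  refine (lintegral_mono_set (t := {x | An x} ∩ Bx R (P.c.t1 + j + 1 / 2) (P.c.t1 + j + 3 / 2))
    fun x k => ⟨k.2.1, k.2.2.2⟩).trans ((setLIntegral_mono' (an_ms.inter (bx_ms _ _ _))
    fun x k => ?_).trans (lintegral_mono_set inter_subset_left))
  rw [← ENNReal.ofReal_mul zero_le_two, St.out_one k.2.1 (k.2.1.trans hR), mul_one, mul_assoc,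
    ← mul_assoc]
  exact ENNReal.ofReal_le_ofReal (le_mul_of_one_le_left (mul_nonneg (up_nonneg _ _ _)
    (eta_nn _ n x)) (bp_half (by linarith [k.2.2.1]) (by linarith [k.2.2.2])))

end Vale.Agent.P354CP
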