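import Vale.Agent.P354EF.Defs
import Vale.Agent.P354BO.TwE
import Vale.Agent.P354PH.Dec

/-!
The calculus of the weights for the estimate in finite time.
-/

open scoped ContDiff
open Set

noncomputable section

namespace Vale.Agent.P354CP

open Vale.Agent.P354Z Vale.Agent.P354EF
open Vale.Agent.P354BF (De)
open Vale.Agent.P354XT (up dn up_zero up_one dn_one up_nonneg up_le)

variable {cm κ κ' M0 M a r x0 x1 y0 y1 : ℝ} {Z : Set (ℝ × ℝ)} {w w' bd bd' : ℝ × ℝ → ℝ}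

theorem c2_zero : C2 cm M a r 0 0 := ⟨by simp, by simp, by simp⟩

theorem c2_neg (h0 : 0 ≤ cm) (h : C2 cm M a r x0 x1) : 0 ≤ -x1 :=
  (mul_nonneg h0 (abs_nonneg _)).trans h.le

theorem c2_smul (h : C2 cm M a r x0 x1) {c : ℝ} (hc : 0 ≤ c) : C2 cm M a r (c * x0) (c * x1) :=
  ⟨by rw [abs_mul, abs_of_nonneg hc]; nlinarith [mul_le_mul_of_nonneg_left h.le hc],
    by nlinarith [mul_le_mul_of_nonneg_left h.lo hc],
    by nlinarith [mul_le_mul_of_nonneg_left h.an (sq_nonneg c)]⟩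

theorem c2_add (h0 : 0 ≤ cm) (h1 : cm ≤ 1) (h : C2 cm M a r x0 x1) (h' : C2 cm M a r y0 y1) :
    C2 cm M a r (x0 + y0) (x1 + y1) := by
  refine ⟨by nlinarith [h.le, h'.le, mul_le_mul_of_nonneg_left (abs_add_le x0 y0) h0],
    by linarith [h.lo, h'.lo], ?_⟩
  have a1 := c2_neg h0 h
  have a2 := c2_neg h0 h'
  have b1 := (mul_nonneg h0 a1).trans h.lo
  have b2 := (mul_nonneg h0 a2).trans h'.lo
  have c1 := h.an
  have c2 := h'.an
  have e : De M a r * (x1 + y1) + 2 * (r ^ 2 + a ^ 2) * (x0 + y0) =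
    (De M a r * x1 + 2 * (r ^ 2 + a ^ 2) * x0) + (De M a r * y1 + 2 * (r ^ 2 + a ^ 2) * y0) := by
    ring
  rw [e, neg_add]
  generalize De M a r * x1 + 2 * (r ^ 2 + a ^ 2) * x0 = B at *
  generalize De M a r * y1 + 2 * (r ^ 2 + a ^ 2) * y0 = B' at *
  generalize -x1 = A at *
  generalize -y1 = A' at *
  have k : 0 ≤ 1 - cm := by linarith
  have h3 : 2 * (a ^ 2 * x0 * y0) ≤ (1 - cm) * (A * B' + A' * B) := by
    refine (abs_le_of_sq_le_sq' ?_ (by positivity)).2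
    have := mul_le_mul c1 c2 (by positivity) (by positivity)
    nlinarith [mul_nonneg (sq_nonneg (1 - cm)) (sq_nonneg (A * B' - A' * B))]
  nlinarith

theorem c2_mono {c' : ℝ} (h : C2 cm M a r x0 x1) (h0 : 0 ≤ c') (h1 : c' ≤ cm) :
    C2 c' M a r x0 x1 := by
  have a1 := c2_neg (h0.trans h1) h
  have b1 := (mul_nonneg (h0.trans h1) a1).trans h.lo
  exact ⟨(mul_le_mul_of_nonneg_right h1 (abs_nonneg _)).trans h.le,
    (mul_le_mul_of_nonneg_right h1 a1).trans h.lo,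
    h.an.trans (mul_le_mul_of_nonneg_right (by linarith) (mul_nonneg a1 b1))⟩

/-- Admissible weights on Z. -/
structure Wg (cm κ M0 M a : ℝ) (Z : Set (ℝ × ℝ)) (w bd : ℝ × ℝ → ℝ) : Prop where
  sw : ContDiff ℝ ∞ w
  sb : ContDiff ℝ ∞ bd
  w0 : ∀ p, 0 ≤ w p
  b0 : ∀ p, 0 ≤ bd p
  wp : ∀ p ∈ Z, Wp cm κ M0 M a w bd p

theorem Wg.mul (h0 : 0 ≤ cm) (h1 : cm ≤ 1) (h : Wg cm κ M0 M a Z w bd)
    (h' : Wg cm κ' M0 M a Z w' bd') :
    Wg cm (κ + κ') M0 M a Z (fun p => w p * w' p) fun p => w p * bd' p + w' p * bd p := by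
  refine ⟨h.sw.mul h'.sw, (h.sw.mul h'.sb).add (h'.sw.mul h.sb), fun p => mul_nonneg (h.w0 p)
    (h'.w0 p), fun p => add_nonneg (mul_nonneg (h.w0 p) (h'.b0 p)) (mul_nonneg (h'.w0 p) (h.b0 p)),
    fun p hp => ?_⟩
  obtain ⟨x0, x1, c, k, a1, a2⟩ := h.wp p hp
  obtain ⟨y0, y1, c', k', b1, b2⟩ := h'.wp p hp
  have p1 := h.w0 p
  have p2 := h'.w0 p
  have key : ∀ v x y, |fderiv ℝ w p v + x| ≤ bd p → |fderiv ℝ w' p v + y| ≤ bd' p →
      |fderiv ℝ (fun p => w p * w' p) p v + (w p * y + w' p * x)| ≤ w p * bd' p + w' p * bd p := by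
    intro v x y a b
    rw [fderiv_fun_mul (h.sw.differentiable (by simp) p) (h'.sw.differentiable (by simp) p)]
    simp only [add_apply, smul_apply, smul_eq_mul]
    rw [show w p * fderiv ℝ w' p v + w' p * fderiv ℝ w p v + (w p * y + w' p * x) =
      w p * (fderiv ℝ w' p v + y) + w' p * (fderiv ℝ w p v + x) by ring]
    refine (abs_add_le _ _).trans ?_
    rw [abs_mul, abs_mul, abs_of_nonneg p1, abs_of_nonneg p2]
    gcongr
  exact ⟨_, _, c2_add h0 h1 (c2_smul c' p1) (c2_smul c p2), by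
    nlinarith [mul_le_mul_of_nonneg_left k p2, mul_le_mul_of_nonneg_left k' p1],
    key _ _ _ a1 b1, key _ _ _ a2 b2⟩

theorem fd_comp {φ μ : ℝ → ℝ} (hφ : ContDiff ℝ ∞ φ) (hμ : ContDiff ℝ ∞ μ) (α : ℝ) (p v : ℝ × ℝ) :
    fderiv ℝ (fun p : ℝ × ℝ => φ (α * p.1 + μ p.2)) p v =
      deriv φ (α * p.1 + μ p.2) * (α * v.1 + deriv μ p.2 * v.2) := by
  have h1 : HasFDerivAt (fun p : ℝ × ℝ => α * p.1 + μ p.2) _ p :=
    ((hasFDerivAt_fst (𝕜 := ℝ)).const_mul α).add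
      ((hμ.differentiable (by simp) p.2).hasDerivAt.comp_hasFDerivAt p (hasFDerivAt_snd (𝕜 := ℝ)))
  rw [show (fun p : ℝ × ℝ => φ (α * p.1 + μ p.2)) = φ ∘ fun p => α * p.1 + μ p.2 from rfl,
    ((hφ.differentiable (by simp) _).hasDerivAt.comp_hasFDerivAt p h1).fderiv]
  simp [mul_add]

variable {φ : ℝ → ℝ} {α β : ℝ}

theorem fd_lin (hφ : ContDiff ℝ ∞ φ) (α β : ℝ) (p v : ℝ × ℝ) :
    fderiv ℝ (fun p : ℝ × ℝ => φ (α * p.1 + β * p.2)) p v =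
      deriv φ (α * p.1 + β * p.2) * (α * v.1 + β * v.2) := by
  rw [fd_comp hφ (μ := fun r => β * r) (contDiff_const.mul contDiff_id)]
  simp

theorem sm_lin (hφ : ContDiff ℝ ∞ φ) (α β : ℝ) :
    ContDiff ℝ ∞ fun p : ℝ × ℝ => φ (α * p.1 + β * p.2) := hφ.comp (by fun_prop)

/-- A decreasing function of a time function. -/
theorem wg_dec (hφ : ContDiff ℝ ∞ φ) (h0 : ∀ s, 0 ≤ φ s) (hd : ∀ s, deriv φ s ≤ 0)
    (h : ∀ p ∈ Z, κ * φ (α * p.1 + β * p.2) ≤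
      deriv φ (α * p.1 + β * p.2) * (β - α * hs M0 (M, a, p.2)) ∧
      (deriv φ (α * p.1 + β * p.2) ≠ 0 → C2 cm M a p.2 α (β - α * hs M0 (M, a, p.2)))) :
    Wg cm κ M0 M a Z (fun p => φ (α * p.1 + β * p.2)) fun _ => 0 := by
  refine ⟨sm_lin hφ α β, contDiff_const, fun _ => h0 _, fun _ => le_rfl, fun p hp =>
    ⟨-deriv φ (α * p.1 + β * p.2) * α,
      -deriv φ (α * p.1 + β * p.2) * (β - α * hs M0 (M, a, p.2)), ?_, by linarith [(h p hp).1],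
      ?_, ?_⟩⟩
  · by_cases e : deriv φ (α * p.1 + β * p.2) = 0
    · simpa [e] using c2_zero
    · exact c2_smul ((h p hp).2 e) (neg_nonneg.2 (hd _))
  · rw [fd_lin hφ]; simp
  · rw [fd_lin hφ, abs_nonpos_iff]; ring

/-- A cut off along a time function. -/
theorem wg_cut (hc : 0 ≤ cm) (hφ : ContDiff ℝ ∞ φ) (h0 : ∀ s, 0 ≤ φ s) (hd : ∀ s, deriv φ s ≤ 0)
    (h : ∀ p ∈ Z, deriv φ (α * p.1 + β * p.2) ≠ 0 →
      C2 cm M a p.2 α (β - α * hs M0 (M, a, p.2))) :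
    Wg cm 0 M0 M a Z (fun p => φ (α * p.1 + β * p.2)) fun _ => 0 :=
  wg_dec hφ h0 hd fun p hp => ⟨by
    by_cases e : deriv φ (α * p.1 + β * p.2) = 0
    · simp [e]
    · rw [zero_mul]
      exact mul_nonneg_of_nonpos_of_nonpos (hd _) (neg_nonneg.1 (c2_neg hc (h p hp e))), h p hp⟩

/-- A cut off without a sign. -/
theorem wg_bad (hφ : ContDiff ℝ ∞ φ) (h0 : ∀ s, 0 ≤ φ s) {ψ : ℝ → ℝ} (hψ : ContDiff ℝ ∞ ψ)
    (h : ∀ s, |deriv φ s| ≤ ψ s) {B : ℝ} (hB : |α| ≤ B)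
    (hb : ∀ p ∈ Z, |β - α * hs M0 (M, a, p.2)| ≤ B) :
    Wg cm 0 M0 M a Z (fun p => φ (α * p.1 + β * p.2)) fun p => B * ψ (α * p.1 + β * p.2) := by
  have B0 := (abs_nonneg _).trans hB
  refine ⟨sm_lin hφ α β, contDiff_const.mul (sm_lin hψ α β), fun _ => h0 _, fun _ =>
    mul_nonneg B0 ((abs_nonneg _).trans (h _)), fun p hp => ⟨0, 0, c2_zero, by simp, ?_, ?_⟩⟩
  · rw [fd_lin hφ, add_zero, abs_mul, mul_comm]
    exact mul_le_mul (by simpa using hB) (h _) (abs_nonneg _) B0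
  · rw [fd_lin hφ, add_zero, abs_mul, mul_comm]
    exact mul_le_mul (le_of_eq_of_le (by congr 1; ring) (hb p hp)) (h _) (abs_nonneg _) B0

/-- The cones of the Kerr metrics in the chart. -/
def Kc (M0 r1 cm : ℝ) : Prop := ∀ M a r : ℝ, |a| < M → M ≤ 5 / 4 * M0 → r1 ≤ r →
  1 ≤ hs M0 (M, a, r) ∧ hs M0 (M, a, r) ≤ 5 ∧ ∀ m ∈ Icc (0 : ℝ) (3 / 2), (r < 6 * M0 → m = 0) →
    C2 cm M a r 1 (m - 1 * hs M0 (M, a, r))

theorem hs_in (h : 0 < M0) (hr : r ≤ 5 * M0) : hs M0 (M, a, r) = 1 := by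
  rw [hs, cut, up_zero (by linarith) hr]; simp

theorem hs_far (h : 0 < M0) (ha : |a| < M) (hM : M ≤ 5 / 4 * M0) (b : 5 * M0 ≤ r) :
    0 < De M a r ∧ 1 ≤ hs M0 (M, a, r) ∧ hs M0 (M, a, r) ≤ 4 ∧
      2 * M0 ^ 2 ≤ 2 * (r ^ 2 + a ^ 2) - De M a r * hs M0 (M, a, r) ∧
      (6 * M0 ≤ r → 46 / 25 ≤ hs M0 (M, a, r) ∧ 18 * M0 ^ 2 ≤ De M a r) := by
  have M0' : 0 < M := (abs_nonneg _).trans_lt ha
  have r0 : 0 < r := by linarith
  have a0 := sq_nonneg a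
  have r2 : 25 * M0 ^ 2 ≤ r ^ 2 := by nlinarith
  have d1 : r ^ 2 / 2 + a ^ 2 ≤ De M a r := by rw [De]; nlinarith
  have d2 : De M a r ≤ r ^ 2 + a ^ 2 := by rw [De]; nlinarith [mul_pos M0' r0]
  have d0 : 0 < De M a r := by linarith [pow_pos r0 2]
  have e : hs M0 (M, a, r) = 1 + up (5 * M0) (6 * M0) r *
      (2 * (r ^ 2 + a ^ 2) / De M a r - 4 * M0 ^ 2 / r ^ 2 - 1) := by
    rw [hs, cut, dn_one (by linarith) (by linarith), mul_one]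
  have q1 : 2 ≤ 2 * (r ^ 2 + a ^ 2) / De M a r := (le_div_iff₀ d0).2 (by linarith)
  have q2 : 2 * (r ^ 2 + a ^ 2) / De M a r ≤ 4 := (div_le_iff₀ d0).2 (by linarith)
  have q3 : 4 * M0 ^ 2 / r ^ 2 ≤ 4 / 25 := (div_le_iff₀ (by positivity)).2 (by linarith)
  have q4 : 0 ≤ 4 * M0 ^ 2 / r ^ 2 := by positivity
  have q5 : De M a r * (2 * (r ^ 2 + a ^ 2) / De M a r) = 2 * (r ^ 2 + a ^ 2) := by field_simp
  have q6 : 2 * M0 ^ 2 ≤ De M a r * (4 * M0 ^ 2 / r ^ 2) := by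
    rw [← mul_div_assoc, le_div_iff₀ (by positivity)]
    linarith [mul_le_mul_of_nonneg_right (show r ^ 2 / 2 ≤ De M a r by linarith) (sq_nonneg M0)]
  have q7 : 2 * M0 ^ 2 ≤ 2 * (r ^ 2 + a ^ 2) - De M a r := by linarith [sq_nonneg M0]
  have u0 := up_nonneg (5 * M0) (6 * M0) r
  have u1 := up_le (5 * M0) (6 * M0) r
  refine ⟨d0, ?_, ?_, ?_, fun b' => ⟨by rw [e, up_one (by linarith) b']; linarith, by nlinarith⟩⟩
  all_goals
    rw [e]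
    clear e
    generalize 2 * (r ^ 2 + a ^ 2) / De M a r = q at *
    generalize up (5 * M0) (6 * M0) r = u, 4 * M0 ^ 2 / r ^ 2 = e, De M a r = D at *
  · linarith [mul_nonneg u0 (show 0 ≤ q - e - 1 by linarith)]
  · linarith [mul_le_of_le_one_left (show 0 ≤ q - e - 1 by linarith) u1]
  · have : u * (D * q) = u * (2 * (r ^ 2 + a ^ 2)) := by rw [q5]
    linarith [mul_le_mul_of_nonneg_left q6 u0, mul_le_mul_of_nonneg_left q7 (sub_nonneg.2 u1)]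

theorem ex_kc (M0 : ℝ) {r1 : ℝ} (h1 : 0 < r1) : ∃ cm, 0 < cm ∧ cm ≤ 1 / 10 ∧ Kc M0 r1 cm := by
  rcases le_or_gt M0 0 with h | h
  · exact ⟨1 / 10, by norm_num, le_rfl, fun M a r ha hM => by linarith [abs_nonneg a]⟩
  obtain ⟨cm, c0, c1, c2, c3, c4⟩ : ∃ cm, 0 < cm ∧ cm ≤ 1 / 10 ∧ cm ≤ r1 ^ 2 / 5 ∧
      cm ≤ 2 * M0 ^ 2 / 5 ∧ cm * (r1 ^ 2 + 2 * M0 ^ 2) ≤ r1 ^ 2 :=
    ⟨min (min (1 / 10) (r1 ^ 2 / 5)) (min (2 * M0 ^ 2 / 5) (r1 ^ 2 / (r1 ^ 2 + 2 * M0 ^ 2))),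
      by positivity, (min_le_left _ _).trans (min_le_left _ _),
      (min_le_left _ _).trans (min_le_right _ _), (min_le_right _ _).trans (min_le_left _ _),
      (le_div_iff₀ (by positivity)).1 ((min_le_right _ _).trans (min_le_right _ _))⟩
  refine ⟨cm, c0, c1, fun M a r ha hM hr => ?_⟩
  have M0' : 0 < M := (abs_nonneg _).trans_lt ha
  have a2 : a ^ 2 ≤ 25 / 16 * M0 ^ 2 := by
    nlinarith [sq_lt_sq' (abs_lt.1 ha).1 (abs_lt.1 ha).2]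
  have r0 : 0 < r := h1.trans_le hr
  have k1 : 0 ≤ 1 - cm := by linarith
  have z := sq_nonneg M0
  rcases le_total r (5 * M0) with b | b
  · rw [hs_in h b]
    refine ⟨le_rfl, by norm_num, fun m _ hm => ?_⟩
    have e : De M a r * (0 - 1 * 1) + 2 * (r ^ 2 + a ^ 2) * 1 = r ^ 2 + a ^ 2 + 2 * M * r := by
      rw [De]; ring
    have k : r1 ^ 2 + a ^ 2 ≤ r ^ 2 + a ^ 2 + 2 * M * r := by nlinarith [mul_pos M0' r0]
    rw [hm (by linarith)]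
    refine ⟨by simp; linarith, by rw [e]; linarith [sq_nonneg a], ?_⟩
    rw [e]
    linarith [mul_le_mul_of_nonneg_left k k1,
      mul_le_mul_of_nonneg_left (show a ^ 2 ≤ 2 * M0 ^ 2 by linarith) c0.le]
  obtain ⟨d0, s1, s2, s3, s4⟩ := hs_far h ha hM b
  refine ⟨s1, by linarith, fun m hm hm' => ?_⟩
  have f : De M a r * (m - 1 * hs M0 (M, a, r)) + 2 * (r ^ 2 + a ^ 2) * 1 =
    2 * (r ^ 2 + a ^ 2) - De M a r * hs M0 (M, a, r) + De M a r * m := by ring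
  have m0 := mul_nonneg d0.le hm.1
  have key : 1 / 10 ≤ hs M0 (M, a, r) - m ∧ 2 * M0 ^ 2 ≤ (hs M0 (M, a, r) - m) *
      (2 * (r ^ 2 + a ^ 2) - De M a r * hs M0 (M, a, r) + De M a r * m) := by
    rcases lt_or_ge r (6 * M0) with b' | b'
    · rw [hm' b', sub_zero, mul_zero, add_zero]
      exact ⟨by linarith, s3.trans (le_mul_of_one_le_left (by linarith) s1)⟩
    · refine ⟨by linarith [hm.2, (s4 b').1], le_trans ?_ (mul_le_mul (sub_le_sub_right (s4 b').1 m)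
        (add_le_add s3 (mul_le_mul_of_nonneg_right (s4 b').2 hm.1)) (by have := hm.1; positivity)
        (by linarith [hm.2, (s4 b').1]))⟩
      linarith [mul_nonneg z (mul_nonneg hm.1 (sub_nonneg.2 hm.2)), mul_nonneg z hm.1]
  refine ⟨by simp; linarith [key.1], ?_, ?_⟩ <;> rw [f]
  · linarith [mul_le_mul_of_nonneg_left (show -(m - 1 * hs M0 (M, a, r)) ≤ 4 by linarith [hm.1])
      c0.le]
  · rw [show -(m - 1 * hs M0 (M, a, r)) = hs M0 (M, a, r) - m by ring]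
    linarith [mul_le_mul_of_nonneg_left key.2 k1, mul_le_mul_of_nonneg_right c1 z]

/-- The covector - d (r + ε t) inside. -/
theorem c2_in {c ε : ℝ} (h : De M a r ≤ -c) (c0 : 0 ≤ cm) (c1 : cm ≤ 1 / 2) (c2 : 4 * cm ≤ c)
    (e0 : 0 ≤ ε) (e1 : ε ≤ 1 / 2) (e2 : 8 * (r ^ 2 + a ^ 2) * ε ≤ c) :
    C2 cm M a r (-ε) (-1 - -ε * 1) := by
  have k : c / 4 ≤ De M a r * (-1 - -ε * 1) + 2 * (r ^ 2 + a ^ 2) * -ε := by nlinarith
  refine ⟨by rw [abs_neg, abs_of_nonneg e0]; nlinarith, by nlinarith, ?_⟩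
  have h1 : 1 / 2 * (1 / 2 * (c / 4)) ≤ (1 - cm) * (-(-1 - -ε * 1) *
      (De M a r * (-1 - -ε * 1) + 2 * (r ^ 2 + a ^ 2) * -ε)) :=
    mul_le_mul (by linarith) (mul_le_mul (by linarith) k (by linarith) (by linarith))
      (by linarith) (by linarith)
  nlinarith [mul_nonneg (sq_nonneg r) e0, mul_nonneg (sq_nonneg a) e0,
    mul_le_mul_of_nonneg_left e1 (mul_nonneg (sq_nonneg a) e0)]

end Vale.Agent.P354CP
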